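import Mathlib
import Vale.Agent.P227.M.Defs

/-! # P227/M/K794: calculus with locally Lipschitz functions on `E n`.

`LL` locally Lipschitz (on balls), `CS` vanishing outside a ball, `LB` measurable and locally bounded.
`int_pd_zero`: `∫ ∂_a f = 0`; `null_lag`: `∫ ∂_e W ∂_a G = ∫ ∂_a W ∂_e G`. -/

open MeasureTheory
open scoped Topology NNReal

set_option linter.all false

namespace Vale.Agent.P227.M.K794

variable {n : ℕ}

/-- Lipschitz on balls -/
def LL (f : E n → ℝ) : Prop :=
  ∀ R : ℝ, ∃ K : ℝ, 0 ≤ K ∧ ∀ x y, ‖x‖ ≤ R → ‖y‖ ≤ R → |f x - f y| ≤ K * ‖x - y‖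

/-- vanishes outside a ball -/
def CS (f : E n → ℝ) : Prop := ∃ R : ℝ, ∀ x, R < ‖x‖ → f x = 0

/-- measurable and locally bounded -/
def LB (f : E n → ℝ) : Prop :=
  AEStronglyMeasurable f volume ∧ ∀ R : ℝ, ∃ B : ℝ, 0 ≤ B ∧ ∀ x, ‖x‖ ≤ R → |f x| ≤ B

/-! ### closure properties -/

theorem LL.bdd {f : E n → ℝ} (hf : LL f) (R : ℝ) : ∃ B : ℝ, 0 ≤ B ∧ ∀ x, ‖x‖ ≤ R → |f x| ≤ B := by
  rcases le_or_gt 0 R with hR | hR
  · obtain ⟨K, hK, h⟩ := hf R
    refine ⟨|f 0| + K * R, by positivity, fun x hx => ?_⟩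
    have h1 := h x 0 hx (by simpa using hR)
    have h2 : |f x| ≤ |f x - f 0| + |f 0| := by
      have := abs_add_le (f x - f 0) (f 0)
      simpa using this
    have h3 : K * ‖x - 0‖ ≤ K * R := by
      rw [sub_zero]
      exact mul_le_mul_of_nonneg_left hx hK
    linarith
  · exact ⟨0, le_refl _, fun x hx => absurd (le_trans (norm_nonneg x) hx) (not_le.2 hR)⟩

theorem LL.const (c : ℝ) : LL (fun _ : E n => c) := fun R => ⟨0, le_refl _, fun x y _ _ => by simp⟩

theorem LL.add {f g : E n → ℝ} (hf : LL f) (hg : LL g) : LL (fun x => f x + g x) := by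
  intro R
  obtain ⟨K, hK, h⟩ := hf R
  obtain ⟨K', hK', h'⟩ := hg R
  refine ⟨K + K', by positivity, fun x y hx hy => ?_⟩
  have h1 := h x y hx hy
  have h2 := h' x y hx hy
  have h3 : |f x + g x - (f y + g y)| ≤ |f x - f y| + |g x - g y| := by
    have := abs_add_le (f x - f y) (g x - g y)
    have e : f x + g x - (f y + g y) = (f x - f y) + (g x - g y) := by ring
    rw [e]; exact this
  linarith [add_mul K K' ‖x - y‖]

theorem LL.neg {f : E n → ℝ} (hf : LL f) : LL (fun x => - f x) := by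
  intro R
  obtain ⟨K, hK, h⟩ := hf R
  refine ⟨K, hK, fun x y hx hy => ?_⟩
  have h1 := h x y hx hy
  have e : - f x - - f y = -(f x - f y) := by ring
  rw [e, abs_neg]; exact h1

theorem LL.sub {f g : E n → ℝ} (hf : LL f) (hg : LL g) : LL (fun x => f x - g x) := by
  have h := hf.add hg.neg
  simpa [sub_eq_add_neg] using h

theorem LL.mul {f g : E n → ℝ} (hf : LL f) (hg : LL g) : LL (fun x => f x * g x) := by
  intro R
  obtain ⟨K, hK, h⟩ := hf R
  obtain ⟨K', hK', h'⟩ := hg R
  obtain ⟨B, hB, b⟩ := hf.bdd R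
  obtain ⟨B', hB', b'⟩ := hg.bdd R
  refine ⟨K * B' + B * K', by positivity, fun x y hx hy => ?_⟩
  have e : f x * g x - f y * g y = (f x - f y) * g x + f y * (g x - g y) := by ring
  rw [e]
  refine (abs_add_le _ _).trans ?_
  rw [abs_mul, abs_mul]
  have i1 : |f x - f y| * |g x| ≤ (K * ‖x - y‖) * B' :=
    mul_le_mul (h x y hx hy) (b' x hx) (abs_nonneg _) (by positivity)
  have i2 : |f y| * |g x - g y| ≤ B * (K' * ‖x - y‖) :=
    mul_le_mul (b y hy) (h' x y hx hy) (abs_nonneg _) hB
  calc |f x - f y| * |g x| + |f y| * |g x - g y| ≤ (K * ‖x - y‖) * B' + B * (K' * ‖x - y‖) := by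
        linarith
    _ = (K * B' + B * K') * ‖x - y‖ := by ring

theorem LL.sum {ι : Type*} (s : Finset ι) {f : ι → E n → ℝ} (hf : ∀ i ∈ s, LL (f i)) :
    LL (fun x => ∑ i ∈ s, f i x) := by
  classical
  induction s using Finset.induction_on with
  | empty => simpa using LL.const (n := n) 0
  | insert a s ha ih =>
    simp only [Finset.sum_insert ha]
    exact (hf a (Finset.mem_insert_self a s)).add (ih fun i hi => hf i (Finset.mem_insert_of_mem hi))

theorem LL.congr {f g : E n → ℝ} (hf : LL f) (h : ∀ x, g x = f x) : LL g := by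
  have : g = f := funext h
  rw [this]; exact hf

theorem LL.continuous {f : E n → ℝ} (hf : LL f) : Continuous f := by
  rw [Metric.continuous_iff]
  intro x ε hε
  obtain ⟨K, hK, h⟩ := hf (‖x‖ + 1)
  refine ⟨min 1 (ε / (K + 1)), by positivity, fun y hy => ?_⟩
  have h1 : ‖y - x‖ < 1 := by
    rw [← dist_eq_norm]; exact lt_of_lt_of_le hy (min_le_left _ _)
  have h2 : ‖y - x‖ < ε / (K + 1) := by
    rw [← dist_eq_norm]; exact lt_of_lt_of_le hy (min_le_right _ _)
  have h3 : ‖y‖ ≤ ‖x‖ + 1 := by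
    have := norm_add_le (y - x) x
    rw [sub_add_cancel] at this
    linarith
  have h4 := h y x h3 (by linarith)
  rw [Real.dist_eq]
  calc |f y - f x| ≤ K * ‖y - x‖ := h4
    _ ≤ (K + 1) * ‖y - x‖ := by
        have := norm_nonneg (y - x); nlinarith
    _ < (K + 1) * (ε / (K + 1)) := by
        apply mul_lt_mul_of_pos_left h2; linarith
    _ = ε := by field_simp

theorem LL.of_lip {f : E n → ℝ} {K : ℝ} (h : ∀ x y, |f x - f y| ≤ K * ‖x - y‖) : LL f := by
  intro R
  refine ⟨|K|, abs_nonneg _, fun x y _ _ => (h x y).trans ?_⟩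
  exact mul_le_mul_of_nonneg_right (le_abs_self K) (norm_nonneg _)

theorem LL.of_contDiff {f : E n → ℝ} (hf : ContDiff ℝ 1 f) : LL f := by
  intro R
  have hc : Continuous (fun x => ‖fderiv ℝ f x‖) := (hf.continuous_fderiv (by norm_num)).norm
  obtain ⟨B, hB⟩ := (isCompact_closedBall (0 : E n) R).bddAbove_image hc.continuousOn
  refine ⟨|B|, abs_nonneg _, fun x y hx hy => ?_⟩
  have key := (convex_closedBall (0 : E n) R).norm_image_sub_le_of_norm_fderiv_le (𝕜 := ℝ) (f := f)
    (C := |B|) (fun z _ => (hf.differentiable (by norm_num)) z) (fun z hz => ?_)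
    (mem_closedBall_zero_iff.2 hy) (mem_closedBall_zero_iff.2 hx)
  · simpa [Real.norm_eq_abs] using key
  · exact (hB ⟨z, hz, rfl⟩).trans (le_abs_self B)

theorem LL.exp {f : E n → ℝ} (hf : LL f) : LL (fun x => Real.exp (f x)) := by
  intro R
  obtain ⟨K, hK, h⟩ := hf R
  obtain ⟨B, hB, b⟩ := hf.bdd R
  refine ⟨Real.exp B * K, by positivity, fun x y hx hy => ?_⟩
  have key : ∀ s t : ℝ, s ≤ B → t ≤ B → |Real.exp s - Real.exp t| ≤ Real.exp B * |s - t| := by
    intro s t hs ht
    wlog hst : t ≤ s generalizing s t with H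
    · rw [abs_sub_comm, abs_sub_comm s t]
      exact H t s ht hs (le_of_lt (not_le.1 hst))
    have h1 : 0 ≤ Real.exp s - Real.exp t := sub_nonneg.2 (Real.exp_le_exp.2 hst)
    rw [abs_of_nonneg h1, abs_of_nonneg (sub_nonneg.2 hst)]
    have h2 := Real.add_one_le_exp (t - s)
    have h3 : Real.exp t = Real.exp s * Real.exp (t - s) := by rw [← Real.exp_add]; ring_nf
    have h4 : Real.exp s ≤ Real.exp B := Real.exp_le_exp.2 hs
    have h5 := Real.exp_pos s
    nlinarith [mul_le_mul_of_nonneg_right h4 (sub_nonneg.2 hst)]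
  have k := key (f x) (f y) (le_trans (le_abs_self _) (b x hx)) (le_trans (le_abs_self _) (b y hy))
  calc _ ≤ Real.exp B * |f x - f y| := k
    _ ≤ Real.exp B * (K * ‖x - y‖) := by
        apply mul_le_mul_of_nonneg_left (h x y hx hy) (Real.exp_pos _).le
    _ = _ := by ring

theorem LL.coord (a : Fin n) : LL (fun x : E n => x a) := by
  apply LL.of_contDiff
  fun_prop

theorem LB.of_LL {f : E n → ℝ} (hf : LL f) : LB f := ⟨hf.continuous.aestronglyMeasurable, hf.bdd⟩

theorem LB.of_continuous {f : E n → ℝ} (hf : Continuous f) : LB f := by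
  refine ⟨hf.aestronglyMeasurable, fun R => ?_⟩
  obtain ⟨B, hB⟩ := (isCompact_closedBall (0 : E n) R).bddAbove_image hf.abs.continuousOn
  exact ⟨|B|, abs_nonneg _, fun x hx => (hB ⟨x, mem_closedBall_zero_iff.2 hx, rfl⟩).trans (le_abs_self B)⟩

theorem LB.add {f g : E n → ℝ} (hf : LB f) (hg : LB g) : LB (fun x => f x + g x) := by
  refine ⟨hf.1.add hg.1, fun R => ?_⟩
  obtain ⟨B, hB, b⟩ := hf.2 R
  obtain ⟨B', hB', b'⟩ := hg.2 R
  exact ⟨B + B', by positivity, fun x hx => (abs_add_le _ _).trans (add_le_add (b x hx) (b' x hx))⟩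

theorem LB.neg {f : E n → ℝ} (hf : LB f) : LB (fun x => - f x) := by
  refine ⟨hf.1.neg, fun R => ?_⟩
  obtain ⟨B, hB, b⟩ := hf.2 R
  exact ⟨B, hB, fun x hx => by rw [abs_neg]; exact b x hx⟩

theorem LB.sub {f g : E n → ℝ} (hf : LB f) (hg : LB g) : LB (fun x => f x - g x) := by
  have h := hf.add hg.neg
  simpa [sub_eq_add_neg] using h

theorem LB.mul {f g : E n → ℝ} (hf : LB f) (hg : LB g) : LB (fun x => f x * g x) := by
  refine ⟨hf.1.mul hg.1, fun R => ?_⟩
  obtain ⟨B, hB, b⟩ := hf.2 R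
  obtain ⟨B', hB', b'⟩ := hg.2 R
  exact ⟨B * B', by positivity, fun x hx => by
    rw [abs_mul]; exact mul_le_mul (b x hx) (b' x hx) (abs_nonneg _) hB⟩

theorem LB.sum {ι : Type*} (s : Finset ι) {f : ι → E n → ℝ} (hf : ∀ i ∈ s, LB (f i)) :
    LB (fun x => ∑ i ∈ s, f i x) := by
  classical
  induction s using Finset.induction_on with
  | empty => simpa using LB.of_LL (LL.const (n := n) 0)
  | insert a s ha ih =>
    simp only [Finset.sum_insert ha]
    exact (hf a (Finset.mem_insert_self a s)).add (ih fun i hi => hf i (Finset.mem_insert_of_mem hi))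

theorem CS.mul_left {f : E n → ℝ} (hf : CS f) (g : E n → ℝ) : CS (fun x => g x * f x) := by
  obtain ⟨R, h⟩ := hf
  exact ⟨R, fun x hx => by simp [h x hx]⟩

theorem CS.mul_right {f : E n → ℝ} (hf : CS f) (g : E n → ℝ) : CS (fun x => f x * g x) := by
  obtain ⟨R, h⟩ := hf
  exact ⟨R, fun x hx => by simp [h x hx]⟩

theorem CS.add {f g : E n → ℝ} (hf : CS f) (hg : CS g) : CS (fun x => f x + g x) := by
  obtain ⟨R, h⟩ := hf
  obtain ⟨R', h'⟩ := hg
  exact ⟨max R R', fun x hx => by
    simp [h x (lt_of_le_of_lt (le_max_left _ _) hx), h' x (lt_of_le_of_lt (le_max_right _ _) hx)]⟩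

theorem CS.neg {f : E n → ℝ} (hf : CS f) : CS (fun x => - f x) := by
  obtain ⟨R, h⟩ := hf
  exact ⟨R, fun x hx => by simp [h x hx]⟩

theorem CS.sub {f g : E n → ℝ} (hf : CS f) (hg : CS g) : CS (fun x => f x - g x) := by
  have h := hf.add hg.neg
  simpa [sub_eq_add_neg] using h

theorem CS.sum {ι : Type*} (s : Finset ι) {f : ι → E n → ℝ} (hf : ∀ i ∈ s, CS (f i)) :
    CS (fun x => ∑ i ∈ s, f i x) := by
  classical
  induction s using Finset.induction_on with
  | empty => exact ⟨0, fun x _ => by simp⟩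
  | insert a s ha ih =>
    simp only [Finset.sum_insert ha]
    exact (hf a (Finset.mem_insert_self a s)).add (ih fun i hi => hf i (Finset.mem_insert_of_mem hi))

theorem CS.of_hasCompactSupport {f : E n → ℝ} (hf : HasCompactSupport f) : CS f := by
  obtain ⟨R, hR⟩ := hf.isCompact.isBounded.subset_closedBall (0 : E n)
  refine ⟨R, fun x hx => ?_⟩
  by_contra hne
  have := hR (subset_tsupport f hne)
  rw [mem_closedBall_zero_iff] at this
  linarith

theorem CS.hasCompactSupport {f : E n → ℝ} (hf : CS f) : HasCompactSupport f := by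
  obtain ⟨R, h⟩ := hf
  apply HasCompactSupport.intro (isCompact_closedBall (0 : E n) R)
  intro x hx
  apply h
  rw [mem_closedBall_zero_iff, not_le] at hx
  exact hx

/-- the derivative of a function vanishing outside a ball vanishes outside the ball -/
theorem CS.pd {f : E n → ℝ} (hf : CS f) (a : Fin n) : CS (pd a f) := by
  obtain ⟨R, h⟩ := hf
  refine ⟨R, fun x hx => ?_⟩
  have : f =ᶠ[𝓝 x] fun _ => (0 : ℝ) := by
    filter_upwards [(isOpen_lt continuous_const continuous_norm).mem_nhds hx] with y hy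
    exact h y hy
  simp only [Vale.Agent.P227.M.pd]
  rw [this.fderiv_eq]
  simp

theorem LB.pd {f : E n → ℝ} (hf : LL f) (a : Fin n) : LB (pd a f) := by
  refine ⟨(measurable_fderiv_apply_const ℝ f (ei a)).aestronglyMeasurable, fun R => ?_⟩
  obtain ⟨K, hK, h⟩ := hf (R + 1)
  refine ⟨K * ‖(ei a : E n)‖, by positivity, fun x hx => ?_⟩
  have h1 : ‖fderiv ℝ f x‖ ≤ K := by
    apply norm_fderiv_le_of_lip' ℝ hK
    have : ∀ᶠ y in 𝓝 x, ‖y - x‖ < 1 := by
      have := Metric.ball_mem_nhds x one_pos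
      filter_upwards [this] with y hy
      rwa [← dist_eq_norm]
    filter_upwards [this] with y hy
    have h3 : ‖y‖ ≤ R + 1 := by
      have := norm_add_le (y - x) x
      rw [sub_add_cancel] at this
      linarith
    simpa [Real.norm_eq_abs] using h y x h3 (by linarith)
  have h2 := (fderiv ℝ f x).le_opNorm (ei a)
  rw [Real.norm_eq_abs] at h2
  exact h2.trans (mul_le_mul_of_nonneg_right h1 (norm_nonneg _))

theorem LB.integrable {f : E n → ℝ} (hf : LB f) (hc : CS f) : Integrable f := by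
  obtain ⟨R, h⟩ := hc
  obtain ⟨B, hB, b⟩ := hf.2 R
  have h1 : IntegrableOn f (Metric.closedBall (0 : E n) R) := by
    apply Measure.integrableOn_of_bounded (M := B)
    · exact (isCompact_closedBall (0 : E n) R).measure_lt_top.ne
    · exact hf.1
    · filter_upwards [ae_restrict_mem measurableSet_closedBall] with x hx
      rw [Real.norm_eq_abs]
      exact b x (mem_closedBall_zero_iff.1 hx)
  apply h1.integrable_of_forall_notMem_eq_zero
  intro x hx
  apply h
  rw [mem_closedBall_zero_iff, not_le] at hx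
  exact hx

/-- locally Lipschitz with compact support is Lipschitz -/
theorem LL.lipschitz {f : E n → ℝ} (hf : LL f) (hc : CS f) : ∃ K : ℝ≥0, LipschitzWith K f := by
  obtain ⟨R, h⟩ := hc
  obtain ⟨K, hK, hl⟩ := hf (R + 1)
  obtain ⟨B, hB, b⟩ := hf.bdd R
  refine ⟨⟨K + B, by positivity⟩, LipschitzWith.of_dist_le_mul fun x y => ?_⟩
  rw [Real.dist_eq, dist_eq_norm]
  change |f x - f y| ≤ (K + B) * ‖x - y‖
  have aux : ∀ x y : E n, ‖x‖ ≤ R → |f x - f y| ≤ (K + B) * ‖x - y‖ := by
    intro x y hx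
    rcases le_or_gt ‖y‖ (R + 1) with hy | hy
    · refine (hl x y (by linarith) hy).trans ?_
      have := norm_nonneg (x - y); nlinarith
    · have h1 : 1 ≤ ‖x - y‖ := by
        have := norm_sub_norm_le y x
        rw [norm_sub_rev] at this
        linarith
      rw [h y (by linarith), sub_zero]
      have := b x hx
      nlinarith
  rcases le_or_gt ‖x‖ R with hx | hx
  · exact aux x y hx
  · rcases le_or_gt ‖y‖ R with hy | hy
    · rw [abs_sub_comm, norm_sub_rev]
      exact aux y x hy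
    · rw [h x hx, h y hy]
      simp only [sub_self, abs_zero]
      positivity

theorem LL.ae_diff {f : E n → ℝ} (hf : LL f) : ∀ᵐ x, DifferentiableAt ℝ f x := by
  have h1 : ∀ k : ℕ, ∀ᵐ x : E n, x ∈ Metric.ball (0 : E n) k → DifferentiableAt ℝ f x := by
    intro k
    obtain ⟨K, hK, h⟩ := hf k
    have hl : LipschitzOnWith ⟨K, hK⟩ f (Metric.ball (0 : E n) k) := by
      apply LipschitzOnWith.of_dist_le_mul
      intro x hx y hy
      rw [Real.dist_eq, dist_eq_norm]
      rw [mem_ball_zero_iff] at hx hy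
      exact h x y hx.le hy.le
    filter_upwards [hl.ae_differentiableWithinAt_of_mem] with x hx hxm
    exact (hx hxm).differentiableAt (Metric.isOpen_ball.mem_nhds hxm)
  have h2 := ae_all_iff.2 h1
  filter_upwards [h2] with x hx
  obtain ⟨k, hk⟩ := exists_nat_gt ‖x‖
  exact hx k (mem_ball_zero_iff.2 hk)

theorem lineDeriv_eq_pd {f : E n → ℝ} {x : E n} (h : DifferentiableAt ℝ f x) (a : Fin n) :
    lineDeriv ℝ f x (ei a) = pd a f x := h.lineDeriv_eq_fderiv

/-- `∫ ∂_a f = 0` -/
theorem int_pd_zero {f : E n → ℝ} (hf : LL f) (hc : CS f) (a : Fin n) : ∫ x, pd a f x = 0 := by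
  obtain ⟨K, hK⟩ := hf.lipschitz hc
  have h := LipschitzWith.integral_lineDeriv_mul_eq (μ := (volume : Measure (E n)))
    (LipschitzWith.const (1 : ℝ)) hK hc.hasCompactSupport (-(ei a))
  have e1 : ∀ x : E n, lineDeriv ℝ (fun _ : E n => (1 : ℝ)) x (-(ei a)) = 0 := by
    intro x; simp [lineDeriv]
  have h2 : ∫ x, lineDeriv ℝ f x (ei a) = 0 := by
    simpa [e1] using h.symm
  rw [← h2]
  apply integral_congr_ae
  filter_upwards [hf.ae_diff] with x hx
  exact (lineDeriv_eq_pd hx a).symm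

/-- null Lagrangian -/
theorem null_lag {W G : E n → ℝ} (hW : LL W) (cW : CS W) (hG : LL G) (cG : CS G) (a e : Fin n) :
    ∫ x, pd e W x * pd a G x = ∫ x, pd a W x * pd e G x := by
  obtain ⟨K, hK⟩ := hW.lipschitz cW
  obtain ⟨K', hK'⟩ := hG.lipschitz cG
  have iG : Integrable (fun x => pd a G x) := (LB.pd hG a).integrable (cG.pd a)
  have iW : Integrable (fun x => pd a W x) := (LB.pd hW a).integrable (cW.pd a)
  have A := hK.integral_inv_smul_sub_mul_tendsto_integral_lineDeriv_mul iG (ei e)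
  have B := hK'.integral_inv_smul_sub_mul_tendsto_integral_lineDeriv_mul iW (-(ei e))
  have eA : ∫ x, lineDeriv ℝ W x (ei e) * pd a G x = ∫ x, pd e W x * pd a G x := by
    apply integral_congr_ae
    filter_upwards [hW.ae_diff] with x hx
    rw [lineDeriv_eq_pd hx]
  have eB : ∫ x, lineDeriv ℝ G x (-(ei e)) * pd a W x = - ∫ x, pd a W x * pd e G x := by
    rw [← integral_neg]
    apply integral_congr_ae
    filter_upwards [hG.ae_diff] with x hx
    rw [lineDeriv_neg, lineDeriv_eq_pd hx]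
    ring
  rw [eA] at A
  rw [eB] at B
  suffices S : ∀ t : ℝ, ∫ x, (t⁻¹ • (W (x + t • ei e) - W x)) * pd a G x =
      - ∫ x, (t⁻¹ • (G (x + t • (-(ei e))) - G x)) * pd a W x by
    simp only [S] at A
    have := tendsto_nhds_unique A B.neg
    linarith
  intro t
  -- integration by parts in direction a
  set Wt : E n → ℝ := fun x => W (x + t • ei e) with hWt
  have lWt : LL Wt := by
    intro R
    obtain ⟨K1, hK1, h1⟩ := hW (R + ‖t • (ei e : E n)‖)
    refine ⟨K1, hK1, fun x y hx hy => ?_⟩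
    have := h1 (x + t • ei e) (y + t • ei e) ((norm_add_le _ _).trans (by linarith))
      ((norm_add_le _ _).trans (by linarith))
    simpa [hWt] using this
  have cWt : CS Wt := by
    obtain ⟨R, h⟩ := cW
    refine ⟨R + ‖t • (ei e : E n)‖, fun x hx => h _ ?_⟩
    have := norm_sub_le (x + t • ei e) (t • ei e)
    rw [add_sub_cancel_right] at this
    linarith
  have pdWt : ∀ x, pd a Wt x = pd a W (x + t • ei e) := by
    intro x
    simp only [Vale.Agent.P227.M.pd, hWt]
    rw [fderiv_comp_add_right]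
  have ibp : ∀ P : E n → ℝ, LL P → CS P → ∫ x, P x * pd a G x = - ∫ x, pd a P x * G x := by
    intro P hP cP
    have z := int_pd_zero (hP.mul hG) (cP.mul_right G) a
    have : ∫ x, pd a (fun x => P x * G x) x = ∫ x, (P x * pd a G x + pd a P x * G x) := by
      apply integral_congr_ae
      filter_upwards [hP.ae_diff, hG.ae_diff] with x h1 h2
      simp only [Vale.Agent.P227.M.pd]
      rw [fderiv_fun_mul h1 h2]
      simp [smul_eq_mul]
      ring
    rw [this] at z
    have i1 : Integrable (fun x => P x * pd a G x) :=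
      ((LB.of_LL hP).mul (LB.pd hG a)).integrable (cP.mul_right _)
    have i2 : Integrable (fun x => pd a P x * G x) :=
      ((LB.pd hP a).mul (LB.of_LL hG)).integrable (cG.mul_left _)
    rw [integral_add i1 i2] at z
    linarith
  have j1 := ibp Wt lWt cWt
  have j2 := ibp W hW cW
  have sh : ∫ x, pd a Wt x * G x = ∫ x, pd a W x * G (x + t • (-(ei e))) := by
    simp only [pdWt]
    rw [← integral_add_right_eq_self (fun x => pd a W (x + t • ei e) * G x) (t • (-(ei e)))]
    simp
  have iWt : Integrable (fun x => Wt x * pd a G x) :=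
    ((LB.of_LL lWt).mul (LB.pd hG a)).integrable (cWt.mul_right _)
  have iW0 : Integrable (fun x => W x * pd a G x) :=
    ((LB.of_LL hW).mul (LB.pd hG a)).integrable (cW.mul_right _)
  have lGt : LL (fun x => G (x + t • (-(ei e)))) := by
    intro R
    obtain ⟨K1, hK1, h1⟩ := hG (R + ‖t • (-(ei e) : E n)‖)
    refine ⟨K1, hK1, fun x y hx hy => ?_⟩
    have := h1 (x + t • (-(ei e))) (y + t • (-(ei e))) ((norm_add_le _ _).trans (by linarith))
      ((norm_add_le _ _).trans (by linarith))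
    simpa using this
  have iGt : Integrable (fun x => pd a W x * G (x + t • (-(ei e)))) :=
    ((LB.pd hW a).mul (LB.of_LL lGt)).integrable ((cW.pd a).mul_right _)
  have iG0 : Integrable (fun x => pd a W x * G x) :=
    ((LB.pd hW a).mul (LB.of_LL hG)).integrable ((cW.pd a).mul_right _)
  have l1 : ∫ x, (t⁻¹ • (W (x + t • ei e) - W x)) * pd a G x =
      t⁻¹ * (∫ x, Wt x * pd a G x) - t⁻¹ * ∫ x, W x * pd a G x := by
    rw [← integral_const_mul, ← integral_const_mul, ← integral_sub (iWt.const_mul _) (iW0.const_mul _)]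
    congr 1; ext x; simp only [smul_eq_mul, hWt]; ring
  have l2 : ∫ x, (t⁻¹ • (G (x + t • (-(ei e))) - G x)) * pd a W x =
      t⁻¹ * (∫ x, pd a W x * G (x + t • (-(ei e)))) - t⁻¹ * ∫ x, pd a W x * G x := by
    rw [← integral_const_mul, ← integral_const_mul, ← integral_sub (iGt.const_mul _) (iG0.const_mul _)]
    congr 1; ext x; simp only [smul_eq_mul]; ring
  rw [l1, l2, j1, j2, sh]
  ring

end Vale.Agent.P227.M.K794
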