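import Mathlib
import Vale.Agent.P227.M.K794.Cal

/-! # P227/M/K794: the general commutator identity for first order operators with Lipschitz coefficients. -/

open MeasureTheory
open scoped Topology NNReal

set_option linter.all false

namespace Vale.Agent.P227.M.K794

variable {n : ℕ}

theorem pd_mul {f g : E n → ℝ} {x : E n} (hf : DifferentiableAt ℝ f x) (hg : DifferentiableAt ℝ g x)
    (a : Fin n) : pd a (fun z => f z * g z) x = pd a f x * g x + f x * pd a g x := by
  simp only [Vale.Agent.P227.M.pd]
  rw [fderiv_fun_mul hf hg]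
  simp [smul_eq_mul]
  ring

theorem pd_add {f g : E n → ℝ} {x : E n} (hf : DifferentiableAt ℝ f x) (hg : DifferentiableAt ℝ g x)
    (a : Fin n) : pd a (fun z => f z + g z) x = pd a f x + pd a g x := by
  simp only [Vale.Agent.P227.M.pd]
  rw [fderiv_fun_add hf hg]
  simp

theorem pd_sub {f g : E n → ℝ} {x : E n} (hf : DifferentiableAt ℝ f x) (hg : DifferentiableAt ℝ g x)
    (a : Fin n) : pd a (fun z => f z - g z) x = pd a f x - pd a g x := by
  simp only [Vale.Agent.P227.M.pd]
  rw [fderiv_fun_sub hf hg]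
  simp

theorem pd_sum {ι : Type*} (s : Finset ι) {f : ι → E n → ℝ} {x : E n}
    (hf : ∀ i ∈ s, DifferentiableAt ℝ (f i) x) (a : Fin n) :
    pd a (fun z => ∑ i ∈ s, f i z) x = ∑ i ∈ s, pd a (f i) x := by
  simp only [Vale.Agent.P227.M.pd]
  rw [fderiv_fun_sum hf]
  simp

theorem pd_exp_neg {V : E n → ℝ} {x : E n} (hV : DifferentiableAt ℝ V x) (a : Fin n) :
    pd a (fun z => Real.exp (-V z)) x = - pd a V x * Real.exp (-V x) := by
  simp only [Vale.Agent.P227.M.pd]
  have h : HasFDerivAt (fun z => Real.exp (-V z)) (Real.exp (-V x) • (-(fderiv ℝ V x))) x :=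
    (hV.hasFDerivAt.neg).exp
  rw [h.fderiv]
  simp [smul_eq_mul]
  ring

theorem dmul {f g : E n → ℝ} {x : E n} (hf : DifferentiableAt ℝ f x) (hg : DifferentiableAt ℝ g x) :
    DifferentiableAt ℝ (fun z => f z * g z) x := hf.mul hg

theorem dsub {f g : E n → ℝ} {x : E n} (hf : DifferentiableAt ℝ f x) (hg : DifferentiableAt ℝ g x) :
    DifferentiableAt ℝ (fun z => f z - g z) x := hf.sub hg

theorem dadd {f g : E n → ℝ} {x : E n} (hf : DifferentiableAt ℝ f x) (hg : DifferentiableAt ℝ g x) :
    DifferentiableAt ℝ (fun z => f z + g z) x := hf.add hg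

theorem isub {f g : E n → ℝ} (hf : Integrable f) (hg : Integrable g) :
    Integrable (fun x => f x - g x) := hf.sub hg

/-- the general commutator identity -/
theorem comm {V : E n → ℝ} (hV : ContDiff ℝ 1 V) {α β : Fin n → E n → ℝ} {a b : E n → ℝ}
    (hα : ∀ e, LL (α e)) (hβ : ∀ e, LL (β e))
    (ha : ∀ᵐ x, ∑ e, (pd e V x * α e x - pd e (α e) x) = a x)
    (hb : ∀ᵐ x, ∑ e, (pd e V x * β e x - pd e (β e) x) = b x)
    (hbL : LL b) {u v : E n → ℝ} (hu : LL u) (cu : CS u) (hv : LL v) (cv : CS v) :
    ∫ x, (a x * u x - ∑ e, α e x * pd e u x) * (b x * v x - ∑ f, β f x * pd f v x) * Real.exp (-V x) =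
    ∫ x, ((∑ f, β f x * pd f u x) * (∑ e, α e x * pd e v x) + (∑ e, α e x * pd e b x) * (u x * v x)
      - u x * ∑ f, (∑ e, α e x * pd e (β f) x - ∑ e, β e x * pd e (α f) x) * pd f v x)
        * Real.exp (-V x) := by
  have lV : LL V := LL.of_contDiff hV
  have lρ : LL (fun x => Real.exp (-V x)) := lV.neg.exp
  have lG : ∀ e, LL (fun x => Real.exp (-V x) * α e x * u x) := fun e => (lρ.mul (hα e)).mul hu
  have cG : ∀ e, CS (fun x => Real.exp (-V x) * α e x * u x) := fun e => cu.mul_left _
  have lGb : ∀ e, LL (fun x => Real.exp (-V x) * α e x * u x * (b x * v x)) := fun e =>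
    (lG e).mul (hbL.mul hv)
  have cGb : ∀ e, CS (fun x => Real.exp (-V x) * α e x * u x * (b x * v x)) := fun e =>
    (cG e).mul_right _
  have lGβ : ∀ e f, LL (fun x => Real.exp (-V x) * α e x * u x * β f x) := fun e f => (lG e).mul (hβ f)
  have cGβ : ∀ e f, CS (fun x => Real.exp (-V x) * α e x * u x * β f x) := fun e f =>
    (cG e).mul_right _
  have Z : ∀ e, ∫ x, pd e (fun x => Real.exp (-V x) * α e x * u x * (b x * v x)) x = 0 := fun e =>
    int_pd_zero (lGb e) (cGb e) e
  have N : ∀ e f, ∫ x, pd e v x * pd f (fun x => Real.exp (-V x) * α e x * u x * β f x) x =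
      ∫ x, pd f v x * pd e (fun x => Real.exp (-V x) * α e x * u x * β f x) x := fun e f =>
    null_lag hv cv (lGβ e f) (cGβ e f) f e
  -- the total divergence
  set D : E n → ℝ := fun x => - (∑ e, pd e (fun x => Real.exp (-V x) * α e x * u x * (b x * v x)) x)
    + ∑ e, ∑ f, (pd f v x * pd e (fun x => Real.exp (-V x) * α e x * u x * β f x) x
      - pd e v x * pd f (fun x => Real.exp (-V x) * α e x * u x * β f x) x) with hD
  have iD1 : ∀ e, Integrable (fun x => pd e (fun x => Real.exp (-V x) * α e x * u x * (b x * v x)) x) :=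
    fun e => (LB.pd (lGb e) e).integrable ((cGb e).pd e)
  have iD2 : ∀ e f, Integrable (fun x => pd f v x * pd e (fun x => Real.exp (-V x) * α e x * u x * β f x) x) :=
    fun e f => ((LB.pd hv f).mul (LB.pd (lGβ e f) e)).integrable ((cv.pd f).mul_right _)
  have iD3 : ∀ e f, Integrable (fun x => pd e v x * pd f (fun x => Real.exp (-V x) * α e x * u x * β f x) x) :=
    fun e f => ((LB.pd hv e).mul (LB.pd (lGβ e f) f)).integrable ((cv.pd e).mul_right _)
  have iS1 : Integrable (fun x => ∑ e, pd e (fun x => Real.exp (-V x) * α e x * u x * (b x * v x)) x) :=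
    integrable_finset_sum _ fun e _ => iD1 e
  have iS2 : Integrable (fun x => ∑ e, ∑ f, (pd f v x * pd e (fun x => Real.exp (-V x) * α e x * u x * β f x) x
      - pd e v x * pd f (fun x => Real.exp (-V x) * α e x * u x * β f x) x)) :=
    integrable_finset_sum _ fun e _ => integrable_finset_sum _ fun f _ => isub (iD2 e f) (iD3 e f)
  have hD0 : ∫ x, D x = 0 := by
    have iS1n : Integrable (fun x => - (∑ e, pd e (fun x => Real.exp (-V x) * α e x * u x * (b x * v x)) x)) :=
      iS1.neg
    simp only [hD]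
    rw [integral_add iS1n iS2, integral_neg, integral_finset_sum _ fun e _ => iD1 e]
    simp only [Z]
    rw [integral_finset_sum _ fun e _ => integrable_finset_sum _ fun f _ => isub (iD2 e f) (iD3 e f)]
    have : ∀ e, ∫ x, ∑ f, (pd f v x * pd e (fun x => Real.exp (-V x) * α e x * u x * β f x) x
      - pd e v x * pd f (fun x => Real.exp (-V x) * α e x * u x * β f x) x) = 0 := by
      intro e
      rw [integral_finset_sum _ fun f _ => isub (iD2 e f) (iD3 e f)]
      apply Finset.sum_eq_zero
      intro f _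
      rw [integral_sub (iD2 e f) (iD3 e f), N e f]
      ring
    rw [Finset.sum_eq_zero (fun e _ => this e)]
    simp
  have iD : Integrable D := iS1.neg.add iS2
  have iR : Integrable (fun x => ((∑ f, β f x * pd f u x) * (∑ e, α e x * pd e v x)
      + (∑ e, α e x * pd e b x) * (u x * v x)
      - u x * ∑ f, (∑ e, α e x * pd e (β f) x - ∑ e, β e x * pd e (α f) x) * pd f v x)
        * Real.exp (-V x)) := by
    apply LB.integrable
    · refine LB.mul (LB.sub (LB.add ?_ ?_) ?_) (LB.of_LL lρ)
      · exact (LB.sum _ fun f _ => (LB.of_LL (hβ f)).mul (LB.pd hu f)).mul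
          (LB.sum _ fun e _ => (LB.of_LL (hα e)).mul (LB.pd hv e))
      · exact (LB.sum _ fun e _ => (LB.of_LL (hα e)).mul (LB.pd hbL e)).mul
          ((LB.of_LL hu).mul (LB.of_LL hv))
      · exact (LB.of_LL hu).mul (LB.sum _ fun f _ => (((LB.sum _ fun e _ =>
          (LB.of_LL (hα e)).mul (LB.pd (hβ f) e)).sub (LB.sum _ fun e _ =>
          (LB.of_LL (hβ e)).mul (LB.pd (hα f) e))).mul (LB.pd hv f)))
    · refine CS.mul_right (CS.sub (CS.add ?_ ?_) ?_) _
      · exact CS.mul_right (CS.sum _ fun f _ => (cu.pd f).mul_left _) _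
      · exact (cu.mul_right _).mul_left _
      · exact cu.mul_right _
  have key : (fun x => (a x * u x - ∑ e, α e x * pd e u x) * (b x * v x - ∑ f, β f x * pd f v x)
      * Real.exp (-V x)) =ᵐ[volume] (fun x => ((∑ f, β f x * pd f u x) * (∑ e, α e x * pd e v x)
      + (∑ e, α e x * pd e b x) * (u x * v x)
      - u x * ∑ f, (∑ e, α e x * pd e (β f) x - ∑ e, β e x * pd e (α f) x) * pd f v x)
        * Real.exp (-V x) + D x) := by
    have dα : ∀ᵐ x, ∀ e, DifferentiableAt ℝ (α e) x := ae_all_iff.2 fun e => (hα e).ae_diff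
    have dβ : ∀ᵐ x, ∀ e, DifferentiableAt ℝ (β e) x := ae_all_iff.2 fun e => (hβ e).ae_diff
    filter_upwards [dα, dβ, hbL.ae_diff, hu.ae_diff, hv.ae_diff, ha, hb] with x xα xβ xb xu xv xa xbb
    have xV : DifferentiableAt ℝ V x := (hV.differentiable (by norm_num)) x
    have xρ : DifferentiableAt ℝ (fun x => Real.exp (-V x)) x := xV.neg.exp
    have p1 : ∀ e, pd e (fun x => Real.exp (-V x) * α e x * u x * (b x * v x)) x =
        Real.exp (-V x) * ((- (pd e V x * α e x - pd e (α e) x)) * (u x * b x * v x)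
          + α e x * pd e u x * (b x * v x) + α e x * pd e b x * (u x * v x)
          + α e x * pd e v x * (u x * b x)) := by
      intro e
      rw [pd_mul (dmul (dmul xρ (xα e)) xu) (dmul xb xv), pd_mul (dmul xρ (xα e)) xu,
        pd_mul xρ (xα e), pd_mul xb xv, pd_exp_neg xV]
      ring
    have p2 : ∀ e f g : Fin n, pd g (fun x => Real.exp (-V x) * α e x * u x * β f x) x =
        Real.exp (-V x) * (- pd g V x * α e x * u x * β f x + pd g (α e) x * u x * β f x
          + α e x * pd g u x * β f x + α e x * u x * pd g (β f) x) := by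
      intro e f g
      rw [pd_mul (dmul (dmul xρ (xα e)) xu) (xβ f), pd_mul (dmul xρ (xα e)) xu,
        pd_mul xρ (xα e), pd_exp_neg xV]
      ring
    simp only [hD]
    simp only [p1, p2]
    set r := Real.exp (-V x) with hr
    have s1 : ∑ e, r * ((- (pd e V x * α e x - pd e (α e) x)) * (u x * b x * v x)
          + α e x * pd e u x * (b x * v x) + α e x * pd e b x * (u x * v x)
          + α e x * pd e v x * (u x * b x)) =
        r * (- (a x) * (u x * b x * v x) + (∑ e, α e x * pd e u x) * (b x * v x)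
          + (∑ e, α e x * pd e b x) * (u x * v x) + (∑ e, α e x * pd e v x) * (u x * b x)) := by
      rw [← Finset.mul_sum, ← xa]
      congr 1
      simp only [Finset.sum_add_distrib, ← Finset.sum_mul, Finset.sum_neg_distrib]
    have s2 : ∑ e, ∑ f, (pd f v x * (r * (- pd e V x * α e x * u x * β f x + pd e (α e) x * u x * β f x
          + α e x * pd e u x * β f x + α e x * u x * pd e (β f) x))
          - pd e v x * (r * (- pd f V x * α e x * u x * β f x + pd f (α e) x * u x * β f x
          + α e x * pd f u x * β f x + α e x * u x * pd f (β f) x))) =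
        r * (- (a x) * u x * (∑ f, β f x * pd f v x) + (∑ e, α e x * pd e u x) * (∑ f, β f x * pd f v x)
          + u x * (∑ f, (∑ e, α e x * pd e (β f) x) * pd f v x)
          + b x * u x * (∑ e, α e x * pd e v x)
          - u x * (∑ f, (∑ e, β e x * pd e (α f) x) * pd f v x)
          - (∑ f, β f x * pd f u x) * (∑ e, α e x * pd e v x)) := by
      have t1 : ∀ e f : Fin n, (pd f v x * (r * (- pd e V x * α e x * u x * β f x + pd e (α e) x * u x * β f x
          + α e x * pd e u x * β f x + α e x * u x * pd e (β f) x))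
          - pd e v x * (r * (- pd f V x * α e x * u x * β f x + pd f (α e) x * u x * β f x
          + α e x * pd f u x * β f x + α e x * u x * pd f (β f) x))) =
          (-(r * u x)) * ((pd e V x * α e x - pd e (α e) x) * (β f x * pd f v x))
          + r * ((α e x * pd e u x) * (β f x * pd f v x))
          + (r * u x) * (α e x * pd e (β f) x * pd f v x)
          + (r * u x) * ((α e x * pd e v x) * (pd f V x * β f x - pd f (β f) x))
          - (r * u x) * (β f x * pd f (α e) x * pd e v x)
          - r * ((α e x * pd e v x) * (β f x * pd f u x)) := by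
        intro e f; ring
      simp only [t1]
      simp only [Finset.sum_add_distrib, Finset.sum_sub_distrib, ← Finset.mul_sum]
      have q1 : ∑ e, (pd e V x * α e x - pd e (α e) x) * ∑ f, β f x * pd f v x =
          a x * ∑ f, β f x * pd f v x := by rw [← Finset.sum_mul, xa]
      have q2 : ∑ e, α e x * pd e u x * ∑ f, β f x * pd f v x =
          (∑ e, α e x * pd e u x) * ∑ f, β f x * pd f v x := by rw [← Finset.sum_mul]
      have q3 : ∑ e, ∑ f, α e x * pd e (β f) x * pd f v x =
          ∑ f, (∑ e, α e x * pd e (β f) x) * pd f v x := by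
        rw [Finset.sum_comm]
        simp only [Finset.sum_mul]
      have q4 : ∑ e, α e x * pd e v x * (∑ f, pd f V x * β f x - ∑ f, pd f (β f) x) =
          (∑ e, α e x * pd e v x) * b x := by
        rw [← Finset.sum_mul, ← Finset.sum_sub_distrib, xbb]
      have q5 : ∑ e, ∑ f, β f x * pd f (α e) x * pd e v x =
          ∑ f, (∑ e, β e x * pd e (α f) x) * pd f v x := by
        simp only [Finset.sum_mul]
      have q6 : ∑ e, α e x * pd e v x * ∑ f, β f x * pd f u x =
          (∑ e, α e x * pd e v x) * ∑ f, β f x * pd f u x := by rw [← Finset.sum_mul]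
      rw [q2, q3, q5, q6]
      rw [show ∑ e, (α e x * pd e v x) * (∑ f, pd f V x * β f x - ∑ f, pd f (β f) x) =
        (∑ e, α e x * pd e v x) * b x from q4]
      rw [q1]
      ring
    rw [s1, s2]
    have s3 : u x * ∑ f, (∑ e, α e x * pd e (β f) x - ∑ e, β e x * pd e (α f) x) * pd f v x =
        u x * (∑ f, (∑ e, α e x * pd e (β f) x) * pd f v x)
          - u x * (∑ f, (∑ e, β e x * pd e (α f) x) * pd f v x) := by
      simp only [sub_mul, Finset.sum_sub_distrib, mul_sub]
    rw [s3]
    ring
  rw [integral_congr_ae key, integral_add iR iD, hD0, add_zero]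

end Vale.Agent.P227.M.K794
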