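import Vale.Agent.P227.M.K794.CommA

/-! # P227/M/K794: the commutator identity in the form `∫ (LHS - RHS) e^{-V} = 0`. -/

open MeasureTheory
open scoped Topology NNReal

set_option linter.all false

namespace Vale.Agent.P227.M.K794

variable {n : ℕ}

theorem comm0 {V : E n → ℝ} (hV : ContDiff ℝ 1 V) {α β : Fin n → E n → ℝ} {a b : E n → ℝ}
    (hα : ∀ e, LL (α e)) (hβ : ∀ e, LL (β e))
    (ha : ∀ᵐ x, ∑ e, (pd e V x * α e x - pd e (α e) x) = a x)
    (hb : ∀ᵐ x, ∑ e, (pd e V x * β e x - pd e (β e) x) = b x)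
    (haL : LL a) (hbL : LL b) {u v : E n → ℝ} (hu : LL u) (cu : CS u) (hv : LL v) (cv : CS v) :
    Integrable (fun x => ((a x * u x - ∑ e, α e x * pd e u x) * (b x * v x - ∑ f, β f x * pd f v x)
      - ((∑ f, β f x * pd f u x) * (∑ e, α e x * pd e v x) + (∑ e, α e x * pd e b x) * (u x * v x)
      - u x * ∑ f, (∑ e, α e x * pd e (β f) x - ∑ e, β e x * pd e (α f) x) * pd f v x))
        * Real.exp (-V x)) ∧
    ∫ x, ((a x * u x - ∑ e, α e x * pd e u x) * (b x * v x - ∑ f, β f x * pd f v x)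
      - ((∑ f, β f x * pd f u x) * (∑ e, α e x * pd e v x) + (∑ e, α e x * pd e b x) * (u x * v x)
      - u x * ∑ f, (∑ e, α e x * pd e (β f) x - ∑ e, β e x * pd e (α f) x) * pd f v x))
        * Real.exp (-V x) = 0 := by
  have lV : LL V := LL.of_contDiff hV
  have lρ : LL (fun x => Real.exp (-V x)) := lV.neg.exp
  have iL : Integrable (fun x => (a x * u x - ∑ e, α e x * pd e u x) *
      (b x * v x - ∑ f, β f x * pd f v x) * Real.exp (-V x)) := by
    apply LB.integrable
    · refine LB.mul (LB.mul ?_ ?_) (LB.of_LL lρ)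
      · exact ((LB.of_LL haL).mul (LB.of_LL hu)).sub
          (LB.sum _ fun e _ => (LB.of_LL (hα e)).mul (LB.pd hu e))
      · exact ((LB.of_LL hbL).mul (LB.of_LL hv)).sub
          (LB.sum _ fun e _ => (LB.of_LL (hβ e)).mul (LB.pd hv e))
    · refine CS.mul_right (CS.mul_right ?_ _) _
      exact (cu.mul_left _).sub (CS.sum _ fun e _ => (cu.pd e).mul_left _)
  have iR : Integrable (fun x => ((∑ f, β f x * pd f u x) * (∑ e, α e x * pd e v x)
      + (∑ e, α e x * pd e b x) * (u x * v x)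
      - u x * ∑ f, (∑ e, α e x * pd e (β f) x - ∑ e, β e x * pd e (α f) x) * pd f v x)
        * Real.exp (-V x)) := by
    apply LB.integrable
    · refine LB.mul (LB.sub (LB.add ?_ ?_) ?_) (LB.of_LL lρ)
      · exact (LB.sum _ fun f _ => (LB.of_LL (hβ f)).mul (LB.pd hu f)).mul
          (LB.sum _ fun e _ => (LB.of_LL (hα e)).mul (LB.pd hv e))
      · exact (LB.sum _ fun e _ => (LB.of_LL (hα e)).mul (LB.pd hbL e)).mul
          ((LB.of_LL hu).mul (LB.of_LL hv))
      · exact (LB.of_LL hu).mul (LB.sum _ fun f _ => (((LB.sum _ fun e _ =>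
          (LB.of_LL (hα e)).mul (LB.pd (hβ f) e)).sub (LB.sum _ fun e _ =>
          (LB.of_LL (hβ e)).mul (LB.pd (hα f) e))).mul (LB.pd hv f)))
    · refine CS.mul_right (CS.sub (CS.add ?_ ?_) ?_) _
      · exact CS.mul_right (CS.sum _ fun f _ => (cu.pd f).mul_left _) _
      · exact (cu.mul_right _).mul_left _
      · exact cu.mul_right _
  have key := comm hV hα hβ ha hb hbL hu cu hv cv
  constructor
  · have := isub iL iR
    simpa only [← sub_mul] using this
  · have h2 := integral_sub iL iR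
    rw [key, sub_self] at h2
    simpa only [← sub_mul] using h2

theorem adj0 {V : E n → ℝ} (hV : ContDiff ℝ 1 V) {α : Fin n → E n → ℝ} {a : E n → ℝ}
    (hα : ∀ e, LL (α e))
    (ha : ∀ᵐ x, ∑ e, (pd e V x * α e x - pd e (α e) x) = a x)
    (haL : LL a) {f : E n → ℝ} (hf : LL f) (cf : CS f) :
    Integrable (fun x => (a x * f x - ∑ e, α e x * pd e f x) * Real.exp (-V x)) ∧
    ∫ x, (a x * f x - ∑ e, α e x * pd e f x) * Real.exp (-V x) = 0 := by
  have lV : LL V := LL.of_contDiff hV
  have lρ : LL (fun x => Real.exp (-V x)) := lV.neg.exp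
  have iL : Integrable (fun x => (a x * f x - ∑ e, α e x * pd e f x) * Real.exp (-V x)) := by
    apply LB.integrable
    · exact (((LB.of_LL haL).mul (LB.of_LL hf)).sub
          (LB.sum _ fun e _ => (LB.of_LL (hα e)).mul (LB.pd hf e))).mul (LB.of_LL lρ)
    · exact CS.mul_right ((cf.mul_left _).sub (CS.sum _ fun e _ => (cf.pd e).mul_left _)) _
  refine ⟨iL, ?_⟩
  have lG : ∀ e, LL (fun x => Real.exp (-V x) * α e x * f x) := fun e => (lρ.mul (hα e)).mul hf
  have cG : ∀ e, CS (fun x => Real.exp (-V x) * α e x * f x) := fun e => cf.mul_left _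
  have Z : ∀ e, ∫ x, pd e (fun x => Real.exp (-V x) * α e x * f x) x = 0 := fun e =>
    int_pd_zero (lG e) (cG e) e
  have iZ : ∀ e, Integrable (fun x => pd e (fun x => Real.exp (-V x) * α e x * f x) x) := fun e =>
    (LB.pd (lG e) e).integrable ((cG e).pd e)
  have h0 : ∫ x, ∑ e, pd e (fun x => Real.exp (-V x) * α e x * f x) x = 0 := by
    rw [integral_finset_sum _ fun e _ => iZ e]
    simp [Z]
  have key : (fun x => (a x * f x - ∑ e, α e x * pd e f x) * Real.exp (-V x)) =ᵐ[volume]
      (fun x => - ∑ e, pd e (fun x => Real.exp (-V x) * α e x * f x) x) := by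
    have dα : ∀ᵐ x, ∀ e, DifferentiableAt ℝ (α e) x := ae_all_iff.2 fun e => (hα e).ae_diff
    filter_upwards [dα, hf.ae_diff, ha] with x xα xf xa
    have xV : DifferentiableAt ℝ V x := (hV.differentiable (by norm_num)) x
    have xρ : DifferentiableAt ℝ (fun x => Real.exp (-V x)) x := xV.neg.exp
    have p1 : ∀ e, pd e (fun x => Real.exp (-V x) * α e x * f x) x =
        Real.exp (-V x) * ((- (pd e V x * α e x - pd e (α e) x)) * f x
          + α e x * pd e f x) := by
      intro e
      rw [pd_mul (dmul xρ (xα e)) xf, pd_mul xρ (xα e), pd_exp_neg xV]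
      ring
    simp only [p1]
    rw [← Finset.mul_sum, Finset.sum_add_distrib, ← Finset.sum_mul, Finset.sum_neg_distrib, xa]
    ring
  rw [integral_congr_ae key, integral_neg, h0, neg_zero]

end Vale.Agent.P227.M.K794
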