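import Vale.Agent.P227.M.ID.K.AlgJ
import Vale.Agent.P227.M.ID.K.AlgQ848

/-! # P227/M/K794: the pointwise inequality (all integrations by parts already done). -/

open Finset

set_option linter.all false

namespace Vale.Agent.P227.M.K794

open Vale.Agent.P227.M.K814

variable {n : ℕ}

theorem sumAB (A B : Fin n → Fin n → ℝ) :
    ∑ a, ∑ b, ∑ d, A b d * B a b = ∑ b, (∑ d, A b d) * (∑ a, B a b) := by
  rw [Finset.sum_comm]
  refine sum_congr rfl fun b _ => ?_
  rw [Finset.sum_mul_sum, Finset.sum_comm]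

/-- pointwise inequality -/
theorem pw (T N H : Matrix (Fin n) (Fin n) ℝ) (p ν : Fin n → Matrix (Fin n) (Fin n) ℝ)
    (X W u s : Fin n → ℝ) (u2 J : Matrix (Fin n) (Fin n) ℝ)
    (hT : T.PosDef) (hTs : ∀ a b, T a b = T b a) (hN : ∀ a b, N a b = N b a)
    (hp : ∀ e a b, p e a b = p e b a) (hν1 : ∀ a b c, ν a b c = ν b a c) (hν2 : ∀ e a b, ν e a b = ν e b a)
    (hu2 : ∀ a b, u2 a b = u2 b a)
    (hST : ∀ a, (∑ b, W b * T a b) - (∑ b, p b a b) = X a)
    (hSY : ∀ a b d, ∑ c, T a c * p c b d = ∑ c, T b c * p c a d)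
    (hs : ∀ b, s b = ∑ c, T b c * u c)
    (hJ : ∀ a b, J a b = ∑ c, (p a b c * u c + T b c * u2 a c))
    (LF : Fin n → ℝ) (hLF : ∀ b, LF b = (∑ i, ∑ j, T i j * ν i j b) - ∑ i, X i * N i b)
    (Lu : ℝ) (hLu : Lu = (∑ i, ∑ j, T i j * u2 i j) - ∑ i, X i * u i)
    (fh : Fin n → ℝ) (hfh : ∀ b, fh b = - (∑ d, (X d * (T * N) b d - ∑ e, T d e * XX T N p ν e b d)) + s b) :
    (∑ a, ∑ b, ∑ d, ((X d * (T * N) b d - ∑ e, T d e * XX T N p ν e b d) *
        (X a * N a b - ∑ f, T a f * ν f a b) -
      ((∑ f, T a f * XX T N p ν f b d) * (∑ e, T d e * ν e a b) + T d a * ((T * N) b d * N a b))))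
    + (∑ a, ∑ b, ∑ d, ((X d * (T * N) b d - ∑ e, T d e * XX T N p ν e b d) *
        (W a * (T * N) a b - XX T N p ν a a b) -
      (XX T N p ν a b d * (∑ e, T d e * XX T N p ν e a b) + (∑ e, T d e * H e a) * ((T * N) b d * (T * N) a b)
        + (T * N) b d * ∑ f, p a d f * XX T N p ν f a b)))
    + (∑ a, ∑ b, ((W a * s a - J a a) * (W b * s b - J b b) - (J b a * J a b + H a b * (s a * s b))))
    - 2 * (∑ b, ∑ c, (X c * (s b * N b c) - ∑ e, T c e * (J e b * N b c + s b * ν e b c)))
    ≤ Lu ^ 2 + 2 * (∑ b, fh b * LF b) - (H * T * N * T * N * T).trace - ∑ a, ∑ b, H a b * s a * s b := by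
  set U := T * N with hU
  set Y := XX T N p ν with hY
  set σ : Fin n → ℝ := fun b => ∑ d, (X d * U b d - ∑ e, T d e * Y e b d) with hσ
  have hTi : T * T⁻¹ = 1 := Matrix.mul_nonsing_inv _ hT.det_pos.ne'.isUnit
  -- algQ
  have q := algQ848 n T T⁻¹ N p ν hT hTi (Matrix.IsSymm.ext fun a b => hN b a)
    (fun a => Matrix.IsSymm.ext fun i j => hp a j i) hSY hν1 (fun a => Matrix.IsSymm.ext fun i j => hν2 a j i)
  rw [← hY, ← hU] at q
  -- algJ
  have hJs : (T * J).IsSymm := by
    apply Matrix.IsSymm.ext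
    intro a b
    simp only [Matrix.mul_apply, hJ]
    have e1 : ∀ a b : Fin n, ∑ x, T b x * ∑ c, (p x a c * u c + T a c * u2 x c) =
        ∑ c, (∑ x, T b x * p x a c) * u c + ∑ x, ∑ c, T b x * T a c * u2 x c := by
      intro a b
      simp only [Finset.mul_sum, mul_add, Finset.sum_add_distrib, Finset.sum_mul]
      rw [Finset.sum_comm]
      congr 1
      · exact sum_congr rfl fun c _ => sum_congr rfl fun x _ => by ring
      · exact sum_congr rfl fun c _ => sum_congr rfl fun x _ => by ring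
    rw [e1, e1]
    congr 1
    · exact sum_congr rfl fun c _ => by rw [hSY]
    · rw [Finset.sum_comm]
      exact sum_congr rfl fun c _ => sum_congr rfl fun x _ => by rw [hu2]; ring
  have j := Vale.Agent.P227.M.KAlg.algJ (t := T) (N := N) (J := J) hT (Matrix.IsSymm.ext fun a b => hN b a) hJs
  rw [← hU] at j
  -- l_b
  have hl : ∀ b, ∑ a, (X a * N a b - ∑ f, T a f * ν f a b) = - LF b := by
    intro b
    rw [hLF, Finset.sum_sub_distrib, neg_sub]
    congr 1
    rw [Finset.sum_comm]
    exact sum_congr rfl fun i _ => sum_congr rfl fun k _ => by rw [hTs]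
  have hl2 : ∀ b, ∑ a, (W a * U a b - Y a a b) = - LF b := by
    intro b
    rw [← hl b]
    have e1 : ∀ a, W a * U a b - Y a a b = ∑ c, (W a * T a c - p a a c) * N c b - ∑ c, T a c * ν a c b := by
      intro a
      simp only [hU, hY, XX, Matrix.add_apply, Matrix.mul_apply, sub_mul, Finset.sum_sub_distrib, Finset.mul_sum]
      have : ∑ i, W a * (T a i * N i b) = ∑ x, W a * T a x * N x b :=
        sum_congr rfl fun x _ => by ring
      rw [this]; ring
    have e2 : ∑ a, (W a * U a b - Y a a b) =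
        ∑ c, (∑ a, (W a * T a c - p a a c)) * N c b - ∑ a, ∑ c, T a c * ν a c b := by
      simp only [e1, Finset.sum_sub_distrib]
      congr 1
      simp only [← Finset.sum_sub_distrib, Finset.sum_mul]
      rw [Finset.sum_comm]
    rw [e2, Finset.sum_sub_distrib]
    congr 1
    · refine sum_congr rfl fun c _ => ?_
      rw [← hST c, ← Finset.sum_sub_distrib]
      congr 1
      exact sum_congr rfl fun a _ => by rw [hTs c a, hp a c a]
    · rw [Finset.sum_comm]
      exact sum_congr rfl fun i _ => sum_congr rfl fun k _ => by rw [hTs i k]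
  -- divergence of s
  have hds : ∑ a, (W a * s a - J a a) = - Lu := by
    rw [hLu, neg_sub]
    have e1 : ∀ a, W a * s a - J a a = ∑ c, (W a * T a c - p a a c) * u c - ∑ c, T a c * u2 a c := by
      intro a
      simp only [hs, hJ, sub_mul, Finset.sum_sub_distrib, Finset.mul_sum, Finset.sum_add_distrib]
      have : ∑ i, W a * (T a i * u i) = ∑ x, W a * T a x * u x :=
        sum_congr rfl fun x _ => by ring
      rw [this]; ring
    have e2 : ∑ a, (W a * s a - J a a) =
        ∑ c, (∑ a, (W a * T a c - p a a c)) * u c - ∑ a, ∑ c, T a c * u2 a c := by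
      simp only [e1, Finset.sum_sub_distrib]
      congr 1
      simp only [← Finset.sum_sub_distrib, Finset.sum_mul]
      rw [Finset.sum_comm]
    rw [e2]
    congr 1
    refine sum_congr rfl fun c _ => ?_
    rw [← hST c, ← Finset.sum_sub_distrib]
    congr 1
    exact sum_congr rfl fun a _ => by rw [hTs c a, hp a c a]
  -- the three main sums
  have S1 : ∑ a, ∑ b, ∑ d, ((X d * U b d - ∑ e, T d e * Y e b d) *
        (X a * N a b - ∑ f, T a f * ν f a b) -
      ((∑ f, T a f * Y f b d) * (∑ e, T d e * ν e a b) + T d a * (U b d * N a b))) =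
      - (∑ b, σ b * LF b) - (∑ a, ∑ b, ∑ d, (∑ f, T a f * Y f b d) * (∑ e, T d e * ν e a b))
        - ∑ a, ∑ b, ∑ d, T d a * U b d * N a b := by
    simp only [Finset.sum_sub_distrib, Finset.sum_add_distrib]
    have := sumAB (fun b d => X d * U b d - ∑ e, T d e * Y e b d)
      (fun a b => X a * N a b - ∑ f, T a f * ν f a b)
    simp only [Finset.sum_sub_distrib] at this
    rw [this]
    have h2 : ∀ b, (∑ a, X a * N a b - ∑ a, ∑ f, T a f * ν f a b) = - LF b := by
      intro b; rw [← hl b, Finset.sum_sub_distrib]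
    simp only [h2, hσ, Finset.sum_sub_distrib, mul_neg, Finset.sum_neg_distrib]
    have h3 : ∑ a, ∑ b, ∑ d, T d a * (U b d * N a b) = ∑ a, ∑ b, ∑ d, T d a * U b d * N a b :=
      sum_congr rfl fun a _ => sum_congr rfl fun b _ => sum_congr rfl fun d _ => by ring
    rw [h3]; ring
  have S2 : ∑ a, ∑ b, ∑ d, ((X d * U b d - ∑ e, T d e * Y e b d) *
        (W a * U a b - Y a a b) -
      (Y a b d * (∑ e, T d e * Y e a b) + (∑ e, T d e * H e a) * (U b d * U a b)
        + U b d * ∑ f, p a d f * Y f a b)) =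
      - (∑ b, σ b * LF b) - (∑ a, ∑ b, ∑ d, Y a b d * (∑ e, T d e * Y e a b))
        - (∑ a, ∑ b, ∑ d, (∑ e, T d e * H e a) * (U b d * U a b))
        - (∑ a, ∑ b, ∑ d, U b d * ∑ f, p a d f * Y f a b) := by
    simp only [Finset.sum_sub_distrib, Finset.sum_add_distrib]
    have := sumAB (fun b d => X d * U b d - ∑ e, T d e * Y e b d)
      (fun a b => W a * U a b - Y a a b)
    simp only [Finset.sum_sub_distrib] at this
    rw [this]
    have h2 : ∀ b, (∑ a, W a * U a b - ∑ a, Y a a b) = - LF b := by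
      intro b; rw [← hl2 b, Finset.sum_sub_distrib]
    simp only [h2, hσ, Finset.sum_sub_distrib, mul_neg, Finset.sum_neg_distrib]
    ring
  have S3 : ∑ a, ∑ b, ((W a * s a - J a a) * (W b * s b - J b b) - (J b a * J a b + H a b * (s a * s b))) =
      Lu ^ 2 - (∑ a, ∑ b, J a b * J b a) - ∑ a, ∑ b, H a b * s a * s b := by
    have e1 : Lu ^ 2 = ∑ a, ∑ b, (W a * s a - J a a) * (W b * s b - J b b) := by
      rw [← Finset.sum_mul_sum, hds]; ring
    rw [e1]
    simp only [← Finset.sum_sub_distrib]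
    exact sum_congr rfl fun a _ => sum_congr rfl fun b _ => by ring
  have S4 : ∑ b, ∑ c, (X c * (s b * N b c) - ∑ e, T c e * (J e b * N b c + s b * ν e b c)) =
      - (∑ b, s b * LF b) - ∑ a, ∑ b, J a b * U a b := by
    have e1 : ∀ b, ∑ c, (X c * (s b * N b c) - ∑ e, T c e * (J e b * N b c + s b * ν e b c)) =
        - (s b * LF b) - ∑ a, J a b * U a b := by
      intro b
      have e2 : ∑ a, J a b * U a b = ∑ c, ∑ e, T c e * (J e b * N b c) := by
        simp only [hU, Matrix.mul_apply, Finset.mul_sum]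
        rw [Finset.sum_comm]
        exact sum_congr rfl fun c _ => sum_congr rfl fun e _ => by rw [hTs e c, hN c b]; ring
      have e3 : s b * LF b = ∑ c, ∑ e, T c e * (s b * ν e b c) - ∑ c, X c * (s b * N b c) := by
        rw [hLF, mul_sub, Finset.mul_sum, Finset.mul_sum]
        congr 1
        · rw [Finset.sum_comm]
          refine sum_congr rfl fun i _ => ?_
          rw [Finset.mul_sum]
          refine sum_congr rfl fun k _ => ?_
          rw [hTs i k, hν2 i k b]
          ring
        · exact sum_congr rfl fun i _ => by rw [hN i b]; ring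
      rw [e2, e3]
      simp only [mul_add, Finset.sum_add_distrib, Finset.sum_sub_distrib]
      ring
    simp only [e1, Finset.sum_sub_distrib, Finset.sum_neg_distrib]
    congr 1
    rw [Finset.sum_comm]
  -- the trace
  have S5 : (H * T * N * T * N * T).trace = ∑ a, ∑ b, ∑ d, (∑ e, T d e * H e a) * (U b d * U a b) := by
    have e1 : (H * T * N * T * N * T).trace = ((T * H) * (U * U)).trace := by
      rw [hU]
      rw [show H * T * N * T * N * T = (H * (T * N * (T * N))) * T by simp only [Matrix.mul_assoc]]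
      rw [Matrix.trace_mul_comm, ← Matrix.mul_assoc]
    rw [e1]
    simp only [Matrix.trace, Matrix.diag_apply, Matrix.mul_apply (M := T * H), Matrix.mul_apply (M := U) (N := U),
      Matrix.mul_apply (M := T) (N := H), Finset.mul_sum]
    -- ∑ d, ∑ a, ∑ b
    rw [Finset.sum_comm]
    refine sum_congr rfl fun a _ => ?_
    rw [Finset.sum_comm]
    refine sum_congr rfl fun b _ => sum_congr rfl fun d _ => ?_
    ring
  have S6 : ∑ b, fh b * LF b = - (∑ b, σ b * LF b) + ∑ b, s b * LF b := by
    simp only [hfh, add_mul, Finset.sum_add_distrib, neg_mul, Finset.sum_neg_distrib, hσ]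
  have S7 : ∑ a, ∑ b, ∑ d, Y a b d * (∑ e, T d e * Y e a b) = ∑ a, ∑ b, ∑ d, (∑ f, T d f * Y f a b) * Y a b d :=
    sum_congr rfl fun a _ => sum_congr rfl fun b _ => sum_congr rfl fun d _ => by ring
  have S8 : ∑ a, ∑ b, ∑ d, U b d * ∑ f, p a d f * Y f a b = ∑ a, ∑ b, ∑ d, ∑ e, p a d e * Y e a b * U b d :=
    sum_congr rfl fun a _ => sum_congr rfl fun b _ => sum_congr rfl fun d _ => by
      rw [Finset.mul_sum]
      exact sum_congr rfl fun e _ => by ring
  simp only [Finset.sum_add_distrib] at q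
  rw [S1, S2, S3, S4, S5, S6, S7, S8]
  linarith

end Vale.Agent.P227.M.K794
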