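import Vale.Agent.P227.M.Stmts
import Vale.Agent.P227.M.Bas
import Vale.Agent.P227.M.ID.XStruct
import Vale.Agent.P227.M.K794.CommB
import Vale.Agent.P227.M.K794.Pw

/-! # P227/M/K794: `StmtKey` directly for `C^{2,1}` potentials. -/

open MeasureTheory
open scoped Topology NNReal

set_option linter.all false

namespace Vale.Agent.P227.M.K794

open Vale.Agent.P227.M.K814

variable {n : ℕ}

theorem pd_coord (e a : Fin n) (x : E n) : pd e (fun z : E n => z a) x = if a = e then 1 else 0 := by
  have h : HasFDerivAt (fun z : E n => z a) (EuclideanSpace.proj a : E n →L[ℝ] ℝ) x :=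
    (EuclideanSpace.proj a : E n →L[ℝ] ℝ).hasFDerivAt
  simp only [Vale.Agent.P227.M.pd]
  rw [h.fderiv]
  simp [ei_apply]

theorem pd_const' (e : Fin n) (c : ℝ) (x : E n) : pd e (fun _ : E n => c) x = 0 := by
  simp [Vale.Agent.P227.M.pd]

theorem LL.test {f : E n → ℝ} (hf : ContDiff ℝ (⊤ : ℕ∞) f) : LL f :=
  LL.of_contDiff (hf.of_le (by exact_mod_cast le_top))

theorem ddiff {f : E n → ℝ} (hf : ContDiff ℝ (⊤ : ℕ∞) f) (x : E n) : DifferentiableAt ℝ f x :=
  (hf.differentiable (by simp)) x

theorem sum3 {f : Fin n → Fin n → Fin n → E n → ℝ}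
    (h : ∀ a b d, Integrable (f a b d) ∧ ∫ x, f a b d x = 0) :
    Integrable (fun x => ∑ a, ∑ b, ∑ d, f a b d x) ∧ ∫ x, ∑ a, ∑ b, ∑ d, f a b d x = 0 := by
  refine ⟨integrable_finset_sum _ fun a _ => integrable_finset_sum _ fun b _ =>
    integrable_finset_sum _ fun d _ => (h a b d).1, ?_⟩
  rw [integral_finset_sum _ fun a _ => integrable_finset_sum _ fun b _ =>
    integrable_finset_sum _ fun d _ => (h a b d).1]
  refine Finset.sum_eq_zero fun a _ => ?_
  rw [integral_finset_sum _ fun b _ => integrable_finset_sum _ fun d _ => (h a b d).1]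
  refine Finset.sum_eq_zero fun b _ => ?_
  rw [integral_finset_sum _ fun d _ => (h a b d).1]
  exact Finset.sum_eq_zero fun d _ => (h a b d).2

theorem sum2 {f : Fin n → Fin n → E n → ℝ}
    (h : ∀ a b, Integrable (f a b) ∧ ∫ x, f a b x = 0) :
    Integrable (fun x => ∑ a, ∑ b, f a b x) ∧ ∫ x, ∑ a, ∑ b, f a b x = 0 := by
  refine ⟨integrable_finset_sum _ fun a _ => integrable_finset_sum _ fun b _ => (h a b).1, ?_⟩
  rw [integral_finset_sum _ fun a _ => integrable_finset_sum _ fun b _ => (h a b).1]
  refine Finset.sum_eq_zero fun a _ => ?_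
  rw [integral_finset_sum _ fun b _ => (h a b).1]
  exact Finset.sum_eq_zero fun b _ => (h a b).2

noncomputable def G1 (ψ F : E n → ℝ) (a b d : Fin n) (x : E n) : ℝ :=
  (x d * (tau ψ x * hess F x) b d - ∑ e, tau ψ x d e * pd e (fun z => (tau ψ z * hess F z) b d) x) *
    (x a * hess F x a b - ∑ f, tau ψ x a f * pd f (fun z => hess F z a b) x)
  - ((∑ f, tau ψ x a f * pd f (fun z => (tau ψ z * hess F z) b d) x) *
      (∑ e, tau ψ x d e * pd e (fun z => hess F z a b) x)
    + (∑ e, tau ψ x d e * pd e (fun z : E n => z a) x) * ((tau ψ x * hess F x) b d * hess F x a b)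
    - (tau ψ x * hess F x) b d * ∑ f, (∑ e, tau ψ x d e * pd e (fun z => tau ψ z a f) x
      - ∑ e, tau ψ x a e * pd e (fun z => tau ψ z d f) x) * pd f (fun z => hess F z a b) x)

noncomputable def G2 (ψ V F : E n → ℝ) (a b d : Fin n) (x : E n) : ℝ :=
  (x d * (tau ψ x * hess F x) b d - ∑ e, tau ψ x d e * pd e (fun z => (tau ψ z * hess F z) b d) x) *
    (pd a V x * (tau ψ x * hess F x) a b
      - ∑ f, (if f = a then (1:ℝ) else 0) * pd f (fun z => (tau ψ z * hess F z) a b) x)
  - ((∑ f, (if f = a then (1:ℝ) else 0) * pd f (fun z => (tau ψ z * hess F z) b d) x) *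
      (∑ e, tau ψ x d e * pd e (fun z => (tau ψ z * hess F z) a b) x)
    + (∑ e, tau ψ x d e * pd e (pd a V) x) * ((tau ψ x * hess F x) b d * (tau ψ x * hess F x) a b)
    - (tau ψ x * hess F x) b d * ∑ f, (∑ e, tau ψ x d e * pd e (fun _ : E n => (if f = a then (1:ℝ) else 0)) x
      - ∑ e, (if e = a then (1:ℝ) else 0) * pd e (fun z => tau ψ z d f) x)
        * pd f (fun z => (tau ψ z * hess F z) a b) x)

noncomputable def G3 (ψ V u : E n → ℝ) (a b : Fin n) (x : E n) : ℝ :=
  (pd a V x * fld ψ u a x - ∑ e, (if e = a then (1:ℝ) else 0) * pd e (fld ψ u a) x) *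
    (pd b V x * fld ψ u b x - ∑ f, (if f = b then (1:ℝ) else 0) * pd f (fld ψ u b) x)
  - ((∑ f, (if f = b then (1:ℝ) else 0) * pd f (fld ψ u a) x) *
      (∑ e, (if e = a then (1:ℝ) else 0) * pd e (fld ψ u b) x)
    + (∑ e, (if e = a then (1:ℝ) else 0) * pd e (pd b V) x) * (fld ψ u a x * fld ψ u b x)
    - fld ψ u a x * ∑ f, (∑ e, (if e = a then (1:ℝ) else 0) * pd e (fun _ : E n => (if f = b then (1:ℝ) else 0)) x
      - ∑ e, (if e = b then (1:ℝ) else 0) * pd e (fun _ : E n => (if f = a then (1:ℝ) else 0)) x)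
        * pd f (fld ψ u b) x)

noncomputable def G4 (ψ F u : E n → ℝ) (b c : Fin n) (x : E n) : ℝ :=
  x c * (fld ψ u b x * hess F x b c) - ∑ e, tau ψ x c e * pd e (fun z => fld ψ u b z * hess F z b c) x

theorem stmtKey : StmtKey := by
  intro n ψ V c C M hV hψ F u hF hu
  have hVs : ContDiff ℝ (⊤ : ℕ∞) V := hV.smooth
  have hV1 : ContDiff ℝ 1 V := hVs.of_le (by exact_mod_cast le_top)
  obtain ⟨K, hK0, hK⟩ := XS.tau_lip hψ
  have lτ : ∀ a b, LL (fun x => tau ψ x a b) := fun a b => LL.of_lip (fun x y => hK a b x y)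
  have τs := XS.tau_symm hψ
  have lρ : LL (fun x => Real.exp (-V x)) := (LL.of_contDiff hV1).neg.exp
  have lW : ∀ a, LL (pd a V) := fun a => LL.test (contDiff_pd_top hVs a)
  -- F
  have sN : ∀ a b, ContDiff ℝ (⊤ : ℕ∞) (fun x => hess F x a b) := fun a b => contDiff_hess_top hF.1 a b
  have lN : ∀ a b, LL (fun x => hess F x a b) := fun a b => LL.test (sN a b)
  have cF : ∀ b, CS (pd b F) := fun b => (CS.of_hasCompactSupport hF.2).pd b
  have cN : ∀ a b, CS (fun x => hess F x a b) := fun a b => (cF b).pd a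
  -- U
  have lU : ∀ b d, LL (fun x => (tau ψ x * hess F x) b d) := by
    intro b d
    have := LL.sum (n := n) Finset.univ (f := fun (c : Fin n) x => tau ψ x b c * hess F x c d)
      (fun c _ => (lτ b c).mul (lN c d))
    simpa only [Matrix.mul_apply] using this
  have cU : ∀ b d, CS (fun x => (tau ψ x * hess F x) b d) := by
    intro b d
    have := CS.sum (n := n) Finset.univ (f := fun (c : Fin n) x => tau ψ x b c * hess F x c d)
      (fun c _ => (cN c d).mul_left _)
    simpa only [Matrix.mul_apply] using this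
  -- s
  have lu : ∀ a, LL (pd a u) := fun a => LL.test (contDiff_pd_top hu.1 a)
  have cu' : ∀ a, CS (pd a u) := fun a => (CS.of_hasCompactSupport hu.2).pd a
  have ls : ∀ b, LL (fld ψ u b) := fun b => LL.sum _ fun c _ => (lτ b c).mul (lu c)
  have cs : ∀ b, CS (fld ψ u b) := fun b => CS.sum _ fun c _ => (cu' c).mul_left _
  have hST := XS.ST hVs hψ
  have hSY := XS.SY hψ
  have hgood := XS.ae_good hψ
  have adT : ∀ d : Fin n, ∀ᵐ x : E n, ∑ e, (pd e V x * tau ψ x d e - pd e (fun z => tau ψ z d e) x) = x d := by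
    intro d
    filter_upwards [hST] with x hx
    rw [Finset.sum_sub_distrib]
    exact hx d
  have adI : ∀ a : Fin n, ∀ᵐ x : E n, ∑ e, (pd e V x * (if e = a then (1:ℝ) else 0) -
      pd e (fun _ : E n => (if e = a then (1:ℝ) else 0)) x) = pd a V x := by
    intro a
    filter_upwards with x
    simp [pd_const']
  -- the zero integrals
  have q1 : ∀ a b d : Fin n, Integrable (fun x => G1 ψ F a b d x * Real.exp (-V x)) ∧
      ∫ x, G1 ψ F a b d x * Real.exp (-V x) = 0 := fun a b d =>
    comm0 hV1 (α := fun e x => tau ψ x d e) (β := fun f x => tau ψ x a f)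
    (a := fun x => x d) (b := fun x => x a) (fun e => lτ d e) (fun f => lτ a f) (adT d) (adT a)
    (LL.coord d) (LL.coord a) (lU b d) (cU b d) (lN a b) (cN a b)
  have q2 : ∀ a b d : Fin n, Integrable (fun x => G2 ψ V F a b d x * Real.exp (-V x)) ∧
      ∫ x, G2 ψ V F a b d x * Real.exp (-V x) = 0 := fun a b d =>
    comm0 hV1 (α := fun e x => tau ψ x d e)
    (β := fun f _ => if f = a then (1:ℝ) else 0)
    (a := fun x => x d) (b := pd a V) (fun e => lτ d e) (fun f => LL.const _) (adT d) (adI a)
    (LL.coord d) (lW a) (lU b d) (cU b d) (lU a b) (cU a b)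
  have q3 : ∀ a b : Fin n, Integrable (fun x => G3 ψ V u a b x * Real.exp (-V x)) ∧
      ∫ x, G3 ψ V u a b x * Real.exp (-V x) = 0 := fun a b =>
    comm0 hV1 (α := fun e _ => if e = a then (1:ℝ) else 0)
    (β := fun f _ => if f = b then (1:ℝ) else 0)
    (a := pd a V) (b := pd b V) (fun e => LL.const _) (fun f => LL.const _) (adI a) (adI b)
    (lW a) (lW b) (ls a) (cs a) (ls b) (cs b)
  have q4 : ∀ b c : Fin n, Integrable (fun x => G4 ψ F u b c x * Real.exp (-V x)) ∧
      ∫ x, G4 ψ F u b c x * Real.exp (-V x) = 0 := fun b c =>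
    adj0 hV1 (α := fun e x => tau ψ x c e) (a := fun x => x c)
    (fun e => lτ c e) (adT c) (LL.coord c) (f := fun x => fld ψ u b x * hess F x b c)
    ((ls b).mul (lN b c)) ((cs b).mul_right _)
  obtain ⟨i1, z1⟩ := sum3 q1
  obtain ⟨i2, z2⟩ := sum3 q2
  obtain ⟨i3, z3⟩ := sum2 q3
  obtain ⟨i4, z4⟩ := sum2 q4
  -- total
  have iQ : Integrable (fun x => (∑ a, ∑ b, ∑ d, G1 ψ F a b d x * Real.exp (-V x))
      + (∑ a, ∑ b, ∑ d, G2 ψ V F a b d x * Real.exp (-V x))
      + (∑ a, ∑ b, G3 ψ V u a b x * Real.exp (-V x))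
      - 2 * (∑ b, ∑ c, G4 ψ F u b c x * Real.exp (-V x))) :=
    ((i1.add i2).add i3).sub (i4.const_mul 2)
  have zQ : ∫ x, ((∑ a, ∑ b, ∑ d, G1 ψ F a b d x * Real.exp (-V x))
      + (∑ a, ∑ b, ∑ d, G2 ψ V F a b d x * Real.exp (-V x))
      + (∑ a, ∑ b, G3 ψ V u a b x * Real.exp (-V x))
      - 2 * (∑ b, ∑ c, G4 ψ F u b c x * Real.exp (-V x))) = 0 := by
    rw [integral_sub (by exact (i1.add i2).add i3) (i4.const_mul 2), integral_add (by exact i1.add i2) i3,
      integral_add i1 i2, integral_const_mul, z1, z2, z3, z4]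
    ring
  -- the four integrands
  have lLu : LL (Lop ψ u) := by
    have : LL (fun x => (∑ i, ∑ j, tau ψ x i j * hess u x i j) - ∑ i, x i * pd i u x) :=
      (LL.sum _ fun i _ => LL.sum _ fun j _ => (lτ i j).mul (LL.test (contDiff_hess_top hu.1 i j))).sub
        (LL.sum _ fun i _ => (LL.coord i).mul (lu i))
    exact this
  have cLu : CS (Lop ψ u) := by
    have : CS (fun x => (∑ i, ∑ j, tau ψ x i j * hess u x i j) - ∑ i, x i * pd i u x) :=
      (CS.sum _ fun i _ => CS.sum _ fun j _ => (((cu' j).pd i).mul_left _)).sub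
        (CS.sum _ fun i _ => (cu' i).mul_left _)
    exact this
  have lLF : LL (Lop ψ F) := by
    have : LL (fun x => (∑ i, ∑ j, tau ψ x i j * hess F x i j) - ∑ i, x i * pd i F x) :=
      (LL.sum _ fun i _ => LL.sum _ fun j _ => (lτ i j).mul (lN i j)).sub
        (LL.sum _ fun i _ => (LL.coord i).mul (LL.test (contDiff_pd_top hF.1 i)))
    exact this
  have lLFb : ∀ b, LL (Lop ψ (pd b F)) := by
    intro b
    have sb : ContDiff ℝ (⊤ : ℕ∞) (pd b F) := contDiff_pd_top hF.1 b
    have : LL (fun x => (∑ i, ∑ j, tau ψ x i j * hess (pd b F) x i j) - ∑ i, x i * pd i (pd b F) x) :=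
      (LL.sum _ fun i _ => LL.sum _ fun j _ => (lτ i j).mul (LL.test (contDiff_hess_top sb i j))).sub
        (LL.sum _ fun i _ => (LL.coord i).mul (LL.test (contDiff_pd_top sb i)))
    exact this
  have cLFb : ∀ b, CS (Lop ψ (pd b F)) := by
    intro b
    have : CS (fun x => (∑ i, ∑ j, tau ψ x i j * hess (pd b F) x i j) - ∑ i, x i * pd i (pd b F) x) :=
      (CS.sum _ fun i _ => CS.sum _ fun j _ => ((((cF b).pd j).pd i).mul_left _)).sub
        (CS.sum _ fun i _ => ((cF b).pd i).mul_left _)
    exact this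
  have lh : LL (fun z => Lop ψ F z + F z + u z) := (lLF.add (LL.test hF.1)).add (LL.test hu.1)
  have bfh : ∀ b, LB (fld ψ (fun z => Lop ψ F z + F z + u z) b) := fun b =>
    LB.sum _ fun c _ => (LB.of_LL (lτ b c)).mul (LB.pd lh c)
  have lH : ∀ a b, LL (fun x => hess V x a b) := fun a b => LL.test (contDiff_hess_top hVs a b)
  have iA : Integrable (fun x => (hess V x * tau ψ x * hess F x * tau ψ x * hess F x * tau ψ x).trace
      * Real.exp (-V x)) := by
    have l6 : ∀ i j, LL (fun x => (hess V x * tau ψ x * hess F x * tau ψ x * hess F x * tau ψ x) i j) := by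
      have mulLL : ∀ (A B : E n → Matrix (Fin n) (Fin n) ℝ), (∀ i j, LL (fun x => A x i j)) →
          (∀ i j, LL (fun x => B x i j)) → ∀ i j, LL (fun x => (A x * B x) i j) := by
        intro A B hA hB i j
        have := LL.sum (n := n) Finset.univ (f := fun (c : Fin n) x => A x i c * B x c j)
          (fun c _ => (hA i c).mul (hB c j))
        simpa only [Matrix.mul_apply] using this
      exact mulLL _ _ (mulLL _ _ (mulLL _ _ (mulLL _ _ (mulLL _ _ lH lτ) lN) lτ) lN) lτ
    have c6 : CS (fun x => (hess V x * tau ψ x * hess F x * tau ψ x * hess F x * tau ψ x).trace) := by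
      have : ∃ R : ℝ, ∀ x : E n, R < ‖x‖ → hess F x = 0 := by
        have h1 : ∀ a b, ∃ R : ℝ, ∀ x : E n, R < ‖x‖ → hess F x a b = 0 := fun a b => cN a b
        choose R hR using h1
        refine ⟨∑ a, ∑ b, |R a b|, fun x hx => ?_⟩
        ext a b
        apply hR
        refine lt_of_le_of_lt ?_ hx
        calc R a b ≤ |R a b| := le_abs_self _
          _ ≤ ∑ b, |R a b| := Finset.single_le_sum (f := fun b => |R a b|) (fun _ _ => abs_nonneg _)
              (Finset.mem_univ b)
          _ ≤ _ := Finset.single_le_sum (f := fun a => ∑ b, |R a b|)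
              (fun _ _ => Finset.sum_nonneg fun _ _ => abs_nonneg _) (Finset.mem_univ a)
      obtain ⟨R, hR⟩ := this
      exact ⟨R, fun x hx => by
        show (hess V x * tau ψ x * hess F x * tau ψ x * hess F x * tau ψ x).trace = 0
        rw [hR x hx]; simp⟩
    apply LB.integrable
    · exact (LB.sum (n := n) Finset.univ fun i _ => LB.of_LL (l6 i i)).mul (LB.of_LL lρ)
    · exact c6.mul_right _
  have iB : Integrable (fun x => (∑ a, ∑ b, hess V x a b * fld ψ u a x * fld ψ u b x) * Real.exp (-V x)) := by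
    apply LB.integrable
    · exact (LB.sum _ fun a _ => LB.sum _ fun b _ =>
        ((LB.of_LL (lH a b)).mul (LB.of_LL (ls a))).mul (LB.of_LL (ls b))).mul (LB.of_LL lρ)
    · exact CS.mul_right (CS.sum _ fun a _ => CS.sum _ fun b _ => (cs b).mul_left _) _
  have iC : Integrable (fun x => (Lop ψ u x) ^ 2 * Real.exp (-V x)) := by
    apply LB.integrable
    · have := ((LB.of_LL lLu).mul (LB.of_LL lLu)).mul (LB.of_LL lρ)
      simpa only [← pow_two] using this
    · have := (cLu.mul_right (Lop ψ u)).mul_right (fun x => Real.exp (-V x))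
      simpa only [← pow_two] using this
  have iD : Integrable (fun x => (∑ b, fld ψ (fun z => Lop ψ F z + F z + u z) b x * Lop ψ (pd b F) x)
      * Real.exp (-V x)) := by
    apply LB.integrable
    · exact (LB.sum _ fun b _ => (bfh b).mul (LB.of_LL (lLFb b))).mul (LB.of_LL lρ)
    · exact CS.mul_right (CS.sum _ fun b _ => (cLFb b).mul_left _) _
  -- pointwise inequality
  have key : ∀ᵐ x : E n, (∑ a, ∑ b, ∑ d, G1 ψ F a b d x * Real.exp (-V x))
      + (∑ a, ∑ b, ∑ d, G2 ψ V F a b d x * Real.exp (-V x))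
      + (∑ a, ∑ b, G3 ψ V u a b x * Real.exp (-V x))
      - 2 * (∑ b, ∑ c, G4 ψ F u b c x * Real.exp (-V x)) ≤
      ((Lop ψ u x) ^ 2 * Real.exp (-V x)
        + 2 * ((∑ b, fld ψ (fun z => Lop ψ F z + F z + u z) b x * Lop ψ (pd b F) x) * Real.exp (-V x)))
      - ((hess V x * tau ψ x * hess F x * tau ψ x * hess F x * tau ψ x).trace * Real.exp (-V x)
        + (∑ a, ∑ b, hess V x a b * fld ψ u a x * fld ψ u b x) * Real.exp (-V x)) := by
    filter_upwards [hgood, hST, hSY] with x hx hst hsy
    obtain ⟨hx1, hx2⟩ := hx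
    have hsF : ContDiff ℝ 2 F := hF.1.of_le (by norm_cast)
    have hsu : ContDiff ℝ 2 u := hu.1.of_le (by norm_cast)
    set p : Fin n → Matrix (Fin n) (Fin n) ℝ := fun e a b => pd e (fun z => tau ψ z a b) x with hp
    set ν : Fin n → Matrix (Fin n) (Fin n) ℝ := fun e a b => pd e (fun z => hess F z a b) x with hν
    set J : Matrix (Fin n) (Fin n) ℝ := fun a b => pd a (fld ψ u b) x with hJ
    -- derivative of U
    have fU : ∀ e b d, pd e (fun z => (tau ψ z * hess F z) b d) x = XX (tau ψ x) (hess F x) p ν e b d := by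
      intro e b d
      have : (fun z => (tau ψ z * hess F z) b d) = fun z => ∑ c, tau ψ z b c * hess F z c d := by
        funext z; rw [Matrix.mul_apply]
      rw [this, pd_sum _ (fun c _ => dmul (hx2 b c) (ddiff (sN c d) x))]
      simp only [XX, Matrix.add_apply, Matrix.mul_apply, ← Finset.sum_add_distrib]
      refine Finset.sum_congr rfl fun c _ => ?_
      rw [pd_mul (hx2 b c) (ddiff (sN c d) x)]
    have fs : ∀ e b, pd e (fld ψ u b) x = ∑ c, (p e b c * pd c u x + tau ψ x b c * hess u x e c) := by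
      intro e b
      have : fld ψ u b = fun z => ∑ c, tau ψ z b c * pd c u z := rfl
      rw [this, pd_sum _ (fun c _ => dmul (hx2 b c) (ddiff (contDiff_pd_top hu.1 c) x))]
      refine Finset.sum_congr rfl fun c _ => ?_
      rw [pd_mul (hx2 b c) (ddiff (contDiff_pd_top hu.1 c) x)]
      rfl
    have ds : ∀ b, DifferentiableAt ℝ (fld ψ u b) x := by
      intro b
      have : fld ψ u b = fun z => ∑ c, tau ψ z b c * pd c u z := rfl
      rw [this]
      exact DifferentiableAt.fun_sum fun c _ => dmul (hx2 b c) (ddiff (contDiff_pd_top hu.1 c) x)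
    have fG4 : ∀ e b c, pd e (fun z => fld ψ u b z * hess F z b c) x =
        J e b * hess F x b c + fld ψ u b x * ν e b c := by
      intro e b c
      rw [pd_mul (ds b) (ddiff (sN b c) x)]
    have hν1 : ∀ a b c, ν a b c = ν b a c := fun a b c =>
      hess_symm ((contDiff_pd_top hF.1 c).of_le (by norm_cast)) x a b
    have hν2 : ∀ e a b, ν e a b = ν e b a := by
      intro e a b
      simp only [hν]
      congr 1
      funext z
      exact hess_symm hsF z a b
    -- derivative of L F
    have dLF : DifferentiableAt ℝ (Lop ψ F) x := by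
      have : Lop ψ F = fun z => (∑ i, ∑ j, tau ψ z i j * hess F z i j) - ∑ i, z i * pd i F z := rfl
      rw [this]
      refine dsub ?_ ?_
      · exact DifferentiableAt.fun_sum fun i _ => DifferentiableAt.fun_sum fun j _ =>
          dmul (hx2 i j) (ddiff (sN i j) x)
      · exact DifferentiableAt.fun_sum fun i _ => dmul (ddiff (by fun_prop) x)
          (ddiff (contDiff_pd_top hF.1 i) x)
    have fLF : ∀ e, pd e (Lop ψ F) x = (∑ i, ∑ j, (p e i j * hess F x i j + tau ψ x i j * ν e i j))
        - (pd e F x + ∑ i, x i * hess F x e i) := by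
      intro e
      have : Lop ψ F = fun z => (∑ i, ∑ j, tau ψ z i j * hess F z i j) - ∑ i, z i * pd i F z := rfl
      rw [this, pd_sub (DifferentiableAt.fun_sum fun i _ => DifferentiableAt.fun_sum fun j _ =>
          dmul (hx2 i j) (ddiff (sN i j) x)) (DifferentiableAt.fun_sum fun i _ => dmul (ddiff (by fun_prop) x)
          (ddiff (contDiff_pd_top hF.1 i) x))]
      congr 1
      · rw [pd_sum _ (fun i _ => DifferentiableAt.fun_sum fun j _ => dmul (hx2 i j) (ddiff (sN i j) x))]
        refine Finset.sum_congr rfl fun i _ => ?_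
        rw [pd_sum _ (fun j _ => dmul (hx2 i j) (ddiff (sN i j) x))]
        refine Finset.sum_congr rfl fun j _ => ?_
        rw [pd_mul (hx2 i j) (ddiff (sN i j) x)]
      · rw [pd_sum _ (fun i _ => dmul (ddiff (by fun_prop) x) (ddiff (contDiff_pd_top hF.1 i) x))]
        have : ∀ i, pd e (fun z : E n => z i * pd i F z) x = (if i = e then pd i F x else 0) + x i * hess F x e i := by
          intro i
          rw [pd_mul (ddiff (by fun_prop) x) (ddiff (contDiff_pd_top hF.1 i) x), pd_coord]
          simp only [ite_mul, one_mul, zero_mul]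
          rfl
        simp only [this, Finset.sum_add_distrib, Finset.sum_ite_eq', Finset.mem_univ, if_true]
    have hfh : ∀ b, fld ψ (fun z => Lop ψ F z + F z + u z) b x =
        - (∑ d, (x d * (tau ψ x * hess F x) b d - ∑ e, tau ψ x d e * XX (tau ψ x) (hess F x) p ν e b d))
          + fld ψ u b x := by
      intro b
      have e0 : ∀ e, pd e (fun z => Lop ψ F z + F z + u z) x =
          (∑ i, ∑ j, (p e i j * hess F x i j + tau ψ x i j * ν e i j))
            - (∑ i, x i * hess F x e i) + pd e u x := by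
        intro e
        rw [pd_add (dadd dLF (ddiff hF.1 x)) (ddiff hu.1 x), pd_add dLF (ddiff hF.1 x), fLF]
        ring
      have e1 : fld ψ (fun z => Lop ψ F z + F z + u z) b x =
          ∑ e, tau ψ x b e * ((∑ i, ∑ j, (p e i j * hess F x i j + tau ψ x i j * ν e i j))
            - (∑ i, x i * hess F x e i) + pd e u x) := by
        show ∑ e, tau ψ x b e * pd e (fun z => Lop ψ F z + F z + u z) x = _
        exact Finset.sum_congr rfl fun e _ => by rw [e0]
      have e2 : fld ψ u b x = ∑ e, tau ψ x b e * pd e u x := rfl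
      rw [e1, e2]
      simp only [mul_add, mul_sub, Finset.sum_add_distrib, Finset.sum_sub_distrib]
      congr 1
      rw [neg_sub]
      congr 1
      · -- ∑ e τ_be (∑ij p e i j F_ij + τ_ij ν e i j) = ∑ d e τ_de XX e b d
        have a1 : ∑ e, tau ψ x b e * ∑ i, ∑ j, p e i j * hess F x i j =
            ∑ i, ∑ j, (∑ e, tau ψ x b e * p e i j) * hess F x i j := by
          simp only [Finset.mul_sum, Finset.sum_mul]
          rw [Finset.sum_comm]
          refine Finset.sum_congr rfl fun i _ => ?_
          rw [Finset.sum_comm]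
          exact Finset.sum_congr rfl fun j _ => Finset.sum_congr rfl fun e _ => by ring
        have a2 : ∑ d, ∑ e, tau ψ x d e * XX (tau ψ x) (hess F x) p ν e b d =
            ∑ d, ∑ c, (∑ e, tau ψ x d e * p e b c) * hess F x c d
              + ∑ d, ∑ e, ∑ c, tau ψ x d e * (tau ψ x b c * ν e c d) := by
          simp only [XX, Matrix.add_apply, Matrix.mul_apply, mul_add, Finset.sum_add_distrib, Finset.mul_sum,
            Finset.sum_mul]
          congr 1
          refine Finset.sum_congr rfl fun d _ => ?_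
          rw [Finset.sum_comm]
          exact Finset.sum_congr rfl fun j _ => Finset.sum_congr rfl fun e _ => by ring
        rw [a1, a2]
        congr 1
        · refine Finset.sum_congr rfl fun i _ => Finset.sum_congr rfl fun j _ => ?_
          have h1 : ∑ e, tau ψ x b e * p e i j = ∑ e, tau ψ x i e * p e b j := hsy b i j
          rw [h1, hess_symm hsF x i j]
        · -- ∑ e τ_be ∑ij τ_ij ν e i j = ∑ d e c τ_de τ_bc ν e c d
          have b1 : ∑ e, tau ψ x b e * ∑ i, ∑ j, tau ψ x i j * ν e i j =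
              ∑ i, ∑ j, ∑ e, tau ψ x b e * (tau ψ x i j * ν e i j) := by
            simp only [Finset.mul_sum]
            rw [Finset.sum_comm]
            refine Finset.sum_congr rfl fun i _ => ?_
            rw [Finset.sum_comm]
          rw [b1]
          refine Finset.sum_congr rfl fun i _ => Finset.sum_congr rfl fun j _ =>
            Finset.sum_congr rfl fun e _ => ?_
          have : ν e i j = ν j e i := by rw [hν2 e i j, hν1 e j i]
          rw [this]; ring
      · simp only [Matrix.mul_apply, Finset.mul_sum]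
        rw [Finset.sum_comm]
        refine Finset.sum_congr rfl fun i _ => Finset.sum_congr rfl fun e _ => ?_
        ring
    have P := pw (tau ψ x) (hess F x) (hess V x) p ν (fun i => x i) (fun a => pd a V x)
      (fun a => pd a u x) (fun b => fld ψ u b x) (hess u x) J
      (ID169.tau_posDef hψ x) (fun a b => τs x a b) (fun a b => hess_symm hsF x a b)
      (fun e a b => by
        simp only [hp]
        congr 1
        funext z
        exact τs z a b)
      hν1 hν2 (fun a b => hess_symm hsu x a b) hst (fun a b d => hsy a b d) (fun b => rfl)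
      (fun a b => fs a b) (fun b => Lop ψ (pd b F) x) (fun b => rfl) (Lop ψ u x) rfl
      (fun b => fld ψ (fun z => Lop ψ F z + F z + u z) b x) hfh
    have g1 : ∀ a b d, G1 ψ F a b d x =
        ((x d * (tau ψ x * hess F x) b d - ∑ e, tau ψ x d e * XX (tau ψ x) (hess F x) p ν e b d) *
          (x a * hess F x a b - ∑ f, tau ψ x a f * ν f a b) -
        ((∑ f, tau ψ x a f * XX (tau ψ x) (hess F x) p ν f b d) * (∑ e, tau ψ x d e * ν e a b)
          + tau ψ x d a * ((tau ψ x * hess F x) b d * hess F x a b))) := by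
      intro a b d
      have k1 : ∑ e, tau ψ x d e * pd e (fun z : E n => z a) x = tau ψ x d a := by
        simp [pd_coord]
      have k2 : ∑ f, (∑ e, tau ψ x d e * pd e (fun z => tau ψ z a f) x
          - ∑ e, tau ψ x a e * pd e (fun z => tau ψ z d f) x) * pd f (fun z => hess F z a b) x = 0 := by
        refine Finset.sum_eq_zero fun f _ => ?_
        rw [hsy d a f]; ring
      unfold G1
      rw [k1, k2]
      simp only [fU]
      ring
    have g2 : ∀ a b d, G2 ψ V F a b d x =
        ((x d * (tau ψ x * hess F x) b d - ∑ e, tau ψ x d e * XX (tau ψ x) (hess F x) p ν e b d) *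
          (pd a V x * (tau ψ x * hess F x) a b - XX (tau ψ x) (hess F x) p ν a a b) -
        (XX (tau ψ x) (hess F x) p ν a b d * (∑ e, tau ψ x d e * XX (tau ψ x) (hess F x) p ν e a b)
          + (∑ e, tau ψ x d e * hess V x e a) * ((tau ψ x * hess F x) b d * (tau ψ x * hess F x) a b)
          + (tau ψ x * hess F x) b d * ∑ f, p a d f * XX (tau ψ x) (hess F x) p ν f a b)) := by
      intro a b d
      unfold G2
      simp only [fU, pd_const', ite_mul, one_mul, zero_mul, mul_zero, Finset.sum_ite_eq', Finset.mem_univ,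
        if_true, Finset.sum_const_zero, zero_sub]
      have k1 : ∑ e, tau ψ x d e * pd e (pd a V) x = ∑ e, tau ψ x d e * hess V x e a := rfl
      have k2 : ∑ f, -pd a (fun z => tau ψ z d f) x * XX (tau ψ x) (hess F x) p ν f a b =
          - ∑ f, p a d f * XX (tau ψ x) (hess F x) p ν f a b := by
        rw [← Finset.sum_neg_distrib]
        exact Finset.sum_congr rfl fun f _ => by simp only [hp]; ring
      rw [k1, k2]
      ring
    have g3 : ∀ a b, G3 ψ V u a b x =
        ((pd a V x * fld ψ u a x - J a a) * (pd b V x * fld ψ u b x - J b b)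
          - (J b a * J a b + hess V x a b * (fld ψ u a x * fld ψ u b x))) := by
      intro a b
      unfold G3
      simp only [pd_const', ite_mul, one_mul, zero_mul, mul_zero, Finset.sum_ite_eq', Finset.mem_univ,
        if_true, Finset.sum_const_zero, sub_zero, ite_self]
      have k1 : pd a (pd b V) x = hess V x a b := rfl
      rw [k1]
    have g4 : ∀ b c, G4 ψ F u b c x =
        x c * (fld ψ u b x * hess F x b c) - ∑ e, tau ψ x c e * (J e b * hess F x b c
          + fld ψ u b x * ν e b c) := by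
      intro b c
      unfold G4
      simp only [fG4]
    have P2 := mul_le_mul_of_nonneg_right P (Real.exp_pos (-V x)).le
    simp only [← g1, ← g2, ← g3, ← g4] at P2
    simp only [← Finset.sum_mul]
    refine le_trans (le_of_eq ?_) (le_trans P2 (le_of_eq ?_))
    · ring
    · ring
  have h := integral_mono_ae iQ (((iC.add (iD.const_mul 2)).sub (iA.add iB))) key
  rw [zQ] at h
  have h2 : ∫ x, (((Lop ψ u x) ^ 2 * Real.exp (-V x)
        + 2 * ((∑ b, fld ψ (fun z => Lop ψ F z + F z + u z) b x * Lop ψ (pd b F) x) * Real.exp (-V x)))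
      - ((hess V x * tau ψ x * hess F x * tau ψ x * hess F x * tau ψ x).trace * Real.exp (-V x)
        + (∑ a, ∑ b, hess V x a b * fld ψ u a x * fld ψ u b x) * Real.exp (-V x))) =
      ((∫ x, (Lop ψ u x) ^ 2 * Real.exp (-V x)) +
        2 * (∫ x, (∑ b, fld ψ (fun z => Lop ψ F z + F z + u z) b x * Lop ψ (pd b F) x) * Real.exp (-V x)))
      - ((∫ x, (hess V x * tau ψ x * hess F x * tau ψ x * hess F x * tau ψ x).trace * Real.exp (-V x))
        + (∫ x, (∑ a, ∑ b, hess V x a b * fld ψ u a x * fld ψ u b x) * Real.exp (-V x))) := by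
    rw [integral_sub (by exact iC.add (iD.const_mul 2)) (by exact iA.add iB),
      integral_add iC (iD.const_mul 2), integral_add iA iB, integral_const_mul]
  have h3 : 0 ≤ ∫ x, (((Lop ψ u x) ^ 2 * Real.exp (-V x)
        + 2 * ((∑ b, fld ψ (fun z => Lop ψ F z + F z + u z) b x * Lop ψ (pd b F) x) * Real.exp (-V x)))
      - ((hess V x * tau ψ x * hess F x * tau ψ x * hess F x * tau ψ x).trace * Real.exp (-V x)
        + (∑ a, ∑ b, hess V x a b * fld ψ u a x * fld ψ u b x) * Real.exp (-V x))) := h
  rw [h2] at h3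
  have hZ : 0 ≤ ∫ x, Real.exp (-V x) := integral_nonneg fun x => (Real.exp_pos _).le
  unfold Ex
  rw [← add_div, ← mul_div_assoc, ← add_div]
  apply div_le_div_of_nonneg_right _ hZ
  linarith

end Vale.Agent.P227.M.K794
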